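import Mathlib

/-!
P209: the standard symplectic form on `ℂ^n`, balls by capacity and symplectic embeddings of them.
-/

namespace P209

open Real Set
open scoped ContDiff

/-- The standard symplectic form `∑ dx_j ∧ dy_j` on `ℂ^n`. -/
def omega {n : ℕ} (v w : Fin n → ℂ) : ℝ := ∑ j, ((v j).re * (w j).im - (v j).im * (w j).re)

/-- The closed ball of capacity `r`. -/
def closedCapBall (n : ℕ) (r : ℝ) : Set (Fin n → ℂ) := {z | π * ∑ j, ‖z j‖ ^ 2 ≤ r}

/-- The open ball of capacity `r`. -/
def openCapBall (n : ℕ) (r : ℝ) : Set (Fin n → ℂ) := {z | π * ∑ j, ‖z j‖ ^ 2 < r}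

/-- A symplectic embedding of the closed ball of capacity `r`: a smooth open embedding of an open
neighbourhood of the ball which pulls the standard form back to itself. -/
def IsSympEmbedding (n : ℕ) (r : ℝ) (φ : (Fin n → ℂ) → (Fin n → ℂ)) : Prop :=
  ∃ U : Set (Fin n → ℂ), IsOpen U ∧ closedCapBall n r ⊆ U ∧ ContDiffOn ℝ ∞ φ U ∧
    Topology.IsOpenEmbedding (fun z : U => φ z.1) ∧
    ∀ z ∈ U, ∀ v w, omega (fderiv ℝ φ z v) (fderiv ℝ φ z w) = omega v w

/-- A smooth injective map preserving the form on an open set is an open embedding of it. -/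
theorem isOpenEmbedding_of_omega {n : ℕ} {φ : (Fin n → ℂ) → (Fin n → ℂ)} {U : Set (Fin n → ℂ)}
    (hU : IsOpen U) (hφ : ContDiffOn ℝ ∞ φ U) (hinj : InjOn φ U)
    (hω : ∀ z ∈ U, ∀ v w, omega (fderiv ℝ φ z v) (fderiv ℝ φ z w) = omega v w) :
    Topology.IsOpenEmbedding (fun z : U => φ z.1) := by
  refine Topology.IsOpenEmbedding.of_continuous_injective_isOpenMap
    hφ.continuousOn.domRestrict (fun a b h => Subtype.ext (hinj a.2 b.2 h)) ?_
  rw [isOpenMap_iff_nhds_le]
  intro z
  have hd := hφ.contDiffAt (hU.mem_nhds z.2)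
  have hker : Function.Injective (fderiv ℝ φ z.1) := by
    rw [injective_iff_map_eq_zero]
    intro v hv
    have h := hω z.1 z.2 v (fun j => Complex.I * v j)
    rw [hv] at h
    simp [omega] at h
    have h0 : ∑ j, ((v j).re * (v j).re + (v j).im * (v j).im) = 0 := by linarith
    rw [Finset.sum_eq_zero_iff_of_nonneg
      (fun j _ => add_nonneg (mul_self_nonneg _) (mul_self_nonneg _))] at h0
    funext j
    exact Complex.normSq_eq_zero.1 (by rw [Complex.normSq_apply]; exact h0 j (Finset.mem_univ j))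
  have hsurj : Function.Surjective (fderiv ℝ φ z.1).toLinearMap :=
    LinearMap.injective_iff_surjective.1 hker
  have h := (hd.hasStrictFDerivAt (by simp)).map_nhds_eq_of_surj
    (LinearMap.range_eq_top.2 hsurj)
  refine h.symm.trans_le ?_
  rw [← hU.nhdsWithin_eq z.2, ← map_nhds_subtype_val, Filter.map_map]
  exact le_rfl

end P209
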