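import Mathlib

/-!
P209: an explicit area preserving embedding of a disc into a strip `(0, ∞) × (0, 1)` whose first
coordinate is at most the action plus `ε`.

`Psi d` maps the strip onto the plane: it is `(u, θ) ↦ u² e^(2πiθ)` followed by the shift
`x ↦ x + d³ / (u sin πθ)`, which pushes the slit `θ ∈ {0, 1}` to infinity. `S d` has the same
Jacobian, so `S d ∘ (Psi d)⁻¹` preserves area.
-/

namespace P209

open Real Set
open scoped ContDiff

/-- The strip of the parameters. -/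
def strip : Set (ℝ × ℝ) := Ioi 0 ×ˢ Ioo 0 1

theorem isOpen_strip : IsOpen strip := isOpen_Ioi.prod isOpen_Ioo

/-- The shifted polar map. -/
noncomputable def Psi (d : ℝ) (p : ℝ × ℝ) : ℝ × ℝ :=
  (p.1 ^ 2 * cos (2 * π * p.2) + d ^ 3 / (p.1 * sin (π * p.2)), p.1 ^ 2 * sin (2 * π * p.2))

/-- The weight in the angle. -/
noncomputable def wgt (t : ℝ) : ℝ := (√(t * (1 - t)))⁻¹

/-- The new coordinates. -/
noncomputable def S (d : ℝ) (p : ℝ × ℝ) : ℝ × ℝ :=
  ((1 + d * π) * (π * p.1 ^ 4 + 2 * π * d ^ 3 * p.1 / sin (π * p.2)) / (1 + d * wgt p.2),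
    (p.2 + d * (arcsin (2 * p.2 - 1) + π / 2)) / (1 + d * π))

/-- The area form of the plane. -/
def area (v w : ℝ × ℝ) : ℝ := v.1 * w.2 - v.2 * w.1

theorem area_map (L : ℝ × ℝ →L[ℝ] ℝ × ℝ) (v w : ℝ × ℝ) :
    area (L v) (L w) = area (L (1, 0)) (L (0, 1)) * area v w := by
  have h : ∀ v : ℝ × ℝ, L v = v.1 • L (1, 0) + v.2 • L (0, 1) := by
    intro v
    rw [← map_smul, ← map_smul, ← map_add]
    congr 1
    simp
  rw [h v, h w]
  simp only [area, Prod.fst_add, Prod.snd_add, Prod.smul_fst, Prod.smul_snd, smul_eq_mul]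
  ring

theorem fderiv_fst_dir {f : ℝ × ℝ → ℝ × ℝ} {p : ℝ × ℝ} (hf : DifferentiableAt ℝ f p)
    {a : ℝ × ℝ} (h : HasDerivAt (fun s => f (s, p.2)) a p.1) : fderiv ℝ f p (1, 0) = a := by
  have h2 : HasDerivAt (fun s : ℝ => ((s, p.2) : ℝ × ℝ)) (1, 0) p.1 :=
    (hasDerivAt_id p.1).prodMk (hasDerivAt_const p.1 p.2)
  exact (hf.hasFDerivAt.comp_hasDerivAt (x := p.1) h2).unique h

theorem fderiv_snd_dir {f : ℝ × ℝ → ℝ × ℝ} {p : ℝ × ℝ} (hf : DifferentiableAt ℝ f p)
    {a : ℝ × ℝ} (h : HasDerivAt (fun s => f (p.1, s)) a p.2) : fderiv ℝ f p (0, 1) = a := by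
  have h2 : HasDerivAt (fun s : ℝ => ((p.1, s) : ℝ × ℝ)) (0, 1) p.2 :=
    (hasDerivAt_const p.2 p.1).prodMk (hasDerivAt_id p.2)
  exact (hf.hasFDerivAt.comp_hasDerivAt (x := p.2) h2).unique h

theorem sin_pos_of_mem {t : ℝ} (ht : t ∈ Ioo (0 : ℝ) 1) : 0 < sin (π * t) :=
  sin_pos_of_pos_of_lt_pi (by have := ht.1; positivity) (by nlinarith [pi_pos, ht.2])

theorem prod_pos_of_mem {t : ℝ} (ht : t ∈ Ioo (0 : ℝ) 1) : 0 < t * (1 - t) :=
  mul_pos ht.1 (by linarith [ht.2])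

theorem wgt_pos {t : ℝ} (ht : t ∈ Ioo (0 : ℝ) 1) : 0 < wgt t :=
  inv_pos.2 (Real.sqrt_pos.2 (prod_pos_of_mem ht))

theorem den_pos {d t : ℝ} (hd : 0 < d) (ht : t ∈ Ioo (0 : ℝ) 1) : 0 < 1 + d * wgt t := by
  have := wgt_pos ht
  positivity

theorem contDiffAt_Psi (d : ℝ) {p : ℝ × ℝ} (hp : p ∈ strip) : ContDiffAt ℝ ∞ (Psi d) p := by
  have h : p.1 * sin (π * p.2) ≠ 0 := (mul_pos hp.1 (sin_pos_of_mem hp.2)).ne'
  unfold Psi
  fun_prop (disch := assumption)

theorem contDiffAt_S {d : ℝ} (hd : 0 < d) {p : ℝ × ℝ} (hp : p ∈ strip) :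
    ContDiffAt ℝ ∞ (S d) p := by
  have h1 : sin (π * p.2) ≠ 0 := (sin_pos_of_mem hp.2).ne'
  have h2 : p.2 * (1 - p.2) ≠ 0 := (prod_pos_of_mem hp.2).ne'
  have h3 : √(p.2 * (1 - p.2)) ≠ 0 := (Real.sqrt_pos.2 (prod_pos_of_mem hp.2)).ne'
  have h4 : 1 + d * (√(p.2 * (1 - p.2)))⁻¹ ≠ 0 := (den_pos hd hp.2).ne'
  have h5 : 1 + d * π ≠ 0 := by positivity
  have h6 : ContDiffAt ℝ ∞ (fun q : ℝ × ℝ => arcsin (2 * q.2 - 1)) p :=
    (contDiffAt_arcsin (by linarith [hp.2.1]) (by linarith [hp.2.2])).comp p (by fun_prop)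
  unfold S wgt
  refine ContDiffAt.prodMk ?_ ?_
  · fun_prop (disch := assumption)
  · exact (contDiffAt_snd.add (contDiffAt_const.mul (h6.add contDiffAt_const))).div_const _

theorem cos_sin_relation (t : ℝ) :
    2 * cos (π * t) * (sin (2 * π * t)) = 2 * sin (π * t) * (cos (2 * π * t) + 1) := by
  rw [show 2 * π * t = 2 * (π * t) by ring, sin_two_mul, cos_two_mul]
  ring

theorem fderiv_Psi_area {d : ℝ} {p : ℝ × ℝ} (hp : p ∈ strip) :
    area (fderiv ℝ (Psi d) p (1, 0)) (fderiv ℝ (Psi d) p (0, 1))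
      = 2 * π * (2 * p.1 ^ 3 + d ^ 3 / sin (π * p.2)) := by
  have hdiff : DifferentiableAt ℝ (Psi d) p := (contDiffAt_Psi d hp).differentiableAt (by simp)
  obtain ⟨u, t⟩ := p
  have hu : u ≠ 0 := hp.1.ne'
  have hs : sin (π * t) ≠ 0 := (sin_pos_of_mem hp.2).ne'
  have h2 : HasDerivAt (fun s : ℝ => 2 * π * s) (2 * π) t := by
    simpa using (hasDerivAt_id t).const_mul (2 * π)
  have h1 : HasDerivAt (fun s : ℝ => π * s) π t := by
    simpa using (hasDerivAt_id t).const_mul π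
  rw [fderiv_fst_dir hdiff (((((hasDerivAt_pow 2 u).mul_const (cos (2 * π * t))).add
      ((hasDerivAt_const u (d ^ 3)).div ((hasDerivAt_id u).mul_const (sin (π * t)))
        (mul_ne_zero hu hs)))).prodMk ((hasDerivAt_pow 2 u).mul_const (sin (2 * π * t)))),
    fderiv_snd_dir hdiff (((h2.cos.const_mul (u ^ 2)).add
      ((hasDerivAt_const t (d ^ 3)).div (h1.sin.const_mul u)
        (mul_ne_zero hu hs))).prodMk (h2.sin.const_mul (u ^ 2)))]
  have e := cos_sin_relation t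
  have e2 := sin_sq_add_cos_sq (2 * π * t)
  simp only [area, id_eq, Nat.cast_ofNat, Nat.add_one_sub_one, pow_one]
  field_simp
  linear_combination π * (2 * u ^ 3 * sin (π * t) ^ 2) * e2 + π * d ^ 3 * e / 2

theorem deriv_angle {t : ℝ} (ht : t ∈ Ioo (0 : ℝ) 1) :
    HasDerivAt (fun s => arcsin (2 * s - 1) + π / 2) (wgt t) t := by
  have h := ((hasDerivAt_arcsin (x := 2 * t - 1) (by linarith [ht.1]) (by linarith [ht.2])).comp t
    (((hasDerivAt_id t).const_mul 2).sub_const 1)).add_const (π / 2)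
  refine h.congr_deriv ?_
  · simp only [wgt]
    rw [show 1 - (2 * t - 1) ^ 2 = 2 ^ 2 * (t * (1 - t)) by ring,
      Real.sqrt_mul (by norm_num), Real.sqrt_sq (by norm_num)]
    field_simp

theorem fderiv_S_area {d : ℝ} (hd : 0 < d) {p : ℝ × ℝ} (hp : p ∈ strip) :
    area (fderiv ℝ (S d) p (1, 0)) (fderiv ℝ (S d) p (0, 1))
      = 2 * π * (2 * p.1 ^ 3 + d ^ 3 / sin (π * p.2)) := by
  have hdiff : DifferentiableAt ℝ (S d) p := (contDiffAt_S hd hp).differentiableAt (by simp)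
  have hC : HasDerivAt (fun s => (S d (p.1, s)).1) (deriv (fun s => (S d (p.1, s)).1) p.2) p.2 :=
    (((contDiffAt_S hd hp).fst.comp (f := fun s : ℝ => ((p.1, s) : ℝ × ℝ)) p.2
      (by fun_prop)).differentiableAt (by simp)).hasDerivAt
  have hG : HasDerivAt (fun s => (S d (p.1, s)).2) ((1 + d * wgt p.2) / (1 + d * π)) p.2 :=
    (((hasDerivAt_id p.2).add ((deriv_angle hp.2).const_mul d)).div_const (1 + d * π))
  have hU : HasDerivAt (fun s => S d (s, p.2))
      (((1 + d * π) * (π * (4 * p.1 ^ 3) + 2 * π * d ^ 3 / sin (π * p.2)) / (1 + d * wgt p.2)),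
        0) p.1 := by
    refine ((((((hasDerivAt_pow 4 p.1).const_mul π).add
      (((hasDerivAt_id p.1).const_mul (2 * π * d ^ 3)).div_const (sin (π * p.2)))).const_mul
        (1 + d * π)).div_const (1 + d * wgt p.2)).congr_deriv ?_).prodMk ?_
    · norm_num
    · exact hasDerivAt_const p.1 ((p.2 + d * (arcsin (2 * p.2 - 1) + π / 2)) / (1 + d * π))
  rw [fderiv_fst_dir hdiff hU, fderiv_snd_dir hdiff (hC.prodMk hG)]
  have := (den_pos hd hp.2).ne'
  have : 1 + d * π ≠ 0 := by positivity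
  simp only [area]
  field_simp
  ring

theorem det_pos {d : ℝ} (hd : 0 < d) {p : ℝ × ℝ} (hp : p ∈ strip) :
    0 < 2 * π * (2 * p.1 ^ 3 + d ^ 3 / sin (π * p.2)) := by
  have := sin_pos_of_mem hp.2
  have := hp.1
  have : (0 : ℝ) < p.1 := hp.1
  positivity

theorem radius_facts {p : ℝ × ℝ} :
    (p.1 ^ 2 * cos (2 * π * p.2)) ^ 2 + (p.1 ^ 2 * sin (2 * π * p.2)) ^ 2 = (p.1 ^ 2) ^ 2 ∧
      (p.1 * sin (π * p.2)) ^ 2 = (p.1 ^ 2 - p.1 ^ 2 * cos (2 * π * p.2)) / 2 := by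
  constructor
  · linear_combination (p.1 ^ 4) * sin_sq_add_cos_sq (2 * π * p.2)
  · rw [show 2 * π * p.2 = 2 * (π * p.2) by ring, cos_two_mul]
    linear_combination (p.1 ^ 2) * sin_sq_add_cos_sq (π * p.2)

theorem injOn_Psi {d : ℝ} (hd : 0 < d) : InjOn (Psi d) strip := by
  have key : ∀ p ∈ strip, ∀ q ∈ strip, Psi d p = Psi d q →
      p.1 ^ 2 * cos (2 * π * p.2) ≤ q.1 ^ 2 * cos (2 * π * q.2) →
      p.1 ^ 2 * cos (2 * π * p.2) = q.1 ^ 2 * cos (2 * π * q.2) := by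
    intro p hp q hq h hle
    obtain ⟨h1, h2⟩ := Prod.ext_iff.1 h
    simp only [Psi] at h1 h2
    have hp0 : 0 < p.1 * sin (π * p.2) := mul_pos hp.1 (sin_pos_of_mem hp.2)
    have hq0 : 0 < q.1 * sin (π * q.2) := mul_pos hq.1 (sin_pos_of_mem hq.2)
    have hD : q.1 * sin (π * q.2) ≤ p.1 * sin (π * p.2) := by
      refine (pow_le_pow_iff_left₀ hq0.le hp0.le two_ne_zero).1 ?_
      rw [radius_facts.2, radius_facts.2]
      have e1 := (radius_facts (p := p)).1
      have e2 := (radius_facts (p := q)).1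
      have a1 : |p.1 ^ 2 * cos (2 * π * p.2)| ≤ p.1 ^ 2 :=
        abs_le_of_sq_le_sq (by nlinarith [sq_nonneg (p.1 ^ 2 * sin (2 * π * p.2))]) (sq_nonneg _)
      have a2 : |q.1 ^ 2 * cos (2 * π * q.2)| ≤ q.1 ^ 2 :=
        abs_le_of_sq_le_sq (by nlinarith [sq_nonneg (q.1 ^ 2 * sin (2 * π * q.2))]) (sq_nonneg _)
      rw [abs_le] at a1 a2
      by_contra hlt
      have hlt' := not_le.1 hlt
      rw [h2] at e1
      have hsum : 0 < p.1 ^ 2 + q.1 ^ 2 := by
        have := pow_pos (show 0 < p.1 from hp.1) 2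
        positivity
      nlinarith [mul_le_mul_of_nonneg_left (show p.1 ^ 2 * cos (2 * π * p.2) + q.1 ^ 2 * cos
        (2 * π * q.2) ≤ p.1 ^ 2 + q.1 ^ 2 by linarith) (sub_nonneg.2 hle),
        mul_lt_mul_of_pos_left (show q.1 ^ 2 * cos (2 * π * q.2) - p.1 ^ 2 * cos (2 * π * p.2)
          < q.1 ^ 2 - p.1 ^ 2 by linarith) hsum]
    have := div_le_div_of_nonneg_left (pow_nonneg hd.le 3) hq0 hD
    linarith
  intro p hp q hq h
  have hx : p.1 ^ 2 * cos (2 * π * p.2) = q.1 ^ 2 * cos (2 * π * q.2) := by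
    rcases le_total (p.1 ^ 2 * cos (2 * π * p.2)) (q.1 ^ 2 * cos (2 * π * q.2)) with h' | h'
    · exact key p hp q hq h h'
    · exact (key q hq p hp h.symm h').symm
  have hy : p.1 ^ 2 * sin (2 * π * p.2) = q.1 ^ 2 * sin (2 * π * q.2) := (Prod.ext_iff.1 h).2
  have hr : p.1 = q.1 := by
    have e1 := (radius_facts (p := p)).1
    have e2 := (radius_facts (p := q)).1
    rw [hx, hy, e2] at e1
    have := (sq_eq_sq₀ (sq_nonneg _) (sq_nonneg _)).1 e1
    exact ((sq_eq_sq₀ (le_of_lt hq.1) (le_of_lt hp.1)).1 this).symm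
  have hq2 : q.1 ^ 2 ≠ 0 := pow_ne_zero 2 hq.1.ne'
  rw [hr] at hx hy
  have hc := mul_left_cancel₀ hq2 hx
  have hs := mul_left_cancel₀ hq2 hy
  obtain ⟨j, hj⟩ := Real.Angle.angle_eq_iff_two_pi_dvd_sub.1
    (Real.Angle.cos_sin_inj hc hs)
  have hj' : p.2 - q.2 = j := by
    have h : 2 * π * (p.2 - q.2) = 2 * π * j := by linarith
    exact mul_left_cancel₀ (by positivity) h
  have hj1 : (-1 : ℝ) < j := by linarith [hp.2.1, hq.2.2]
  have hj2 : (j : ℝ) < 1 := by linarith [hp.2.2, hq.2.1]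
  have : j = 0 := by
    have : (-1 : ℤ) < j := by exact_mod_cast hj1
    have : j < 1 := by exact_mod_cast hj2
    omega
  exact Prod.ext hr (by rw [this] at hj'; push_cast at hj'; linarith)

theorem exists_polar {x y : ℝ} (h : y ≠ 0 ∨ x < 0) :
    ∃ p ∈ strip, p.1 ^ 2 * cos (2 * π * p.2) = x ∧ p.1 ^ 2 * sin (2 * π * p.2) = y := by
  set z : ℂ := ⟨-x, -y⟩ with hz
  have hz0 : z ≠ 0 := by
    intro e
    have h1 := congrArg Complex.re e
    have h2 := congrArg Complex.im e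
    simp [hz] at h1 h2
    rcases h with h | h
    · exact h h2
    · linarith
  have harg : z.arg < π := by
    refine lt_of_le_of_ne (Complex.arg_le_pi z) fun e => ?_
    obtain ⟨h1, h2⟩ := Complex.arg_eq_pi_iff.1 e
    simp [hz] at h1 h2
    rcases h with h | h
    · exact h h2
    · linarith
  have hnp : -π < z.arg := Complex.neg_pi_lt_arg z
  refine ⟨(√‖z‖, (z.arg + π) / (2 * π)), ⟨Real.sqrt_pos.2 (norm_pos_iff.2 hz0), ?_, ?_⟩, ?_, ?_⟩
  · exact div_pos (by linarith) (by positivity)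
  · rw [div_lt_one (by positivity)]; linarith
  · rw [Real.sq_sqrt (norm_nonneg _), show 2 * π * ((z.arg + π) / (2 * π)) = z.arg + π by
      field_simp, cos_add_pi, mul_neg, Complex.norm_mul_cos_arg]
    simp [hz]
  · rw [Real.sq_sqrt (norm_nonneg _), show 2 * π * ((z.arg + π) / (2 * π)) = z.arg + π by
      field_simp, sin_add_pi, mul_neg, Complex.norm_mul_sin_arg]
    simp [hz]

theorem exists_preimage {d : ℝ} (hd : 0 < d) (P : ℝ × ℝ) : ∃ p ∈ strip, Psi d p = P := by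
  obtain ⟨X, Y⟩ := P
  set F : ℝ → ℝ := fun x => x + d ^ 3 / √((√(x ^ 2 + Y ^ 2) - x) / 2) with hF
  suffices h : ∃ x, (Y ≠ 0 ∨ x < 0) ∧ F x = X by
    obtain ⟨x, hx, hX⟩ := h
    obtain ⟨p, hp, h1, h2⟩ := exists_polar hx
    have e : √(x ^ 2 + Y ^ 2) = p.1 ^ 2 := by
      rw [← h1, ← h2, (radius_facts (p := p)).1, Real.sqrt_sq (sq_nonneg _)]
    refine ⟨p, hp, Prod.ext ?_ h2⟩
    rw [hF] at hX
    simp only at hX
    rw [e, ← h1, ← (radius_facts (p := p)).2,
      Real.sqrt_sq (mul_pos hp.1 (sin_pos_of_mem hp.2)).le] at hX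
    exact hX
  set a : ℝ := min (X - 1) (-(d ^ 6) - 1)
  have ha0 : a < 0 := by
    have := min_le_right (X - 1) (-(d ^ 6) - 1)
    have := pow_pos hd 6
    linarith
  have hda : d ^ 6 ≤ -a := by
    have := min_le_right (X - 1) (-(d ^ 6) - 1)
    linarith
  have hFa : F a ≤ X := by
    have h1 : d ^ 6 ≤ (√(a ^ 2 + Y ^ 2) - a) / 2 := by
      have : -a ≤ √(a ^ 2 + Y ^ 2) := Real.le_sqrt_of_sq_le (by nlinarith [sq_nonneg Y])
      linarith
    have h2 : d ^ 3 ≤ √((√(a ^ 2 + Y ^ 2) - a) / 2) :=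
      Real.le_sqrt_of_sq_le (by rw [← pow_mul]; exact h1)
    have h3 : d ^ 3 / √((√(a ^ 2 + Y ^ 2) - a) / 2) ≤ 1 :=
      (div_le_one (lt_of_lt_of_le (pow_pos hd 3) h2)).2 h2
    have := min_le_left (X - 1) (-(d ^ 6) - 1)
    show a + _ ≤ X
    linarith
  have hcont : ∀ s : Set ℝ, (∀ x ∈ s, Y ≠ 0 ∨ x < 0) → ContinuousOn F s := by
    intro s hs x hx
    have h : √((√(x ^ 2 + Y ^ 2) - x) / 2) ≠ 0 := by
      refine (Real.sqrt_pos.2 ?_).ne'
      rcases hs x hx with h | h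
      · have : x < √(x ^ 2 + Y ^ 2) := by
          refine lt_of_le_of_lt (le_abs_self x) ?_
          rw [← Real.sqrt_sq_eq_abs]
          exact Real.sqrt_lt_sqrt (sq_nonneg x) (by linarith [(sq_pos_iff).2 h])
        linarith
      · linarith [Real.sqrt_nonneg (x ^ 2 + Y ^ 2)]
    exact ContinuousAt.continuousWithinAt (by rw [hF]; fun_prop (disch := assumption))
  obtain ⟨b, hab, hb, hFb⟩ : ∃ b, a ≤ b ∧ (Y ≠ 0 ∨ b < 0) ∧ X ≤ F b := by
    by_cases hY : Y = 0
    · set q : ℝ := d ^ 3 / (|X| + |a| + 1) with hq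
      have hq0 : 0 < q := by positivity
      refine ⟨max a (-(q ^ 2)), le_max_left _ _,
        .inr (max_lt ha0 (by have := pow_pos hq0 2; linarith)), ?_⟩
      set b := max a (-(q ^ 2))
      have hb0 : b ≤ 0 := max_le ha0.le (by have := sq_nonneg q; linarith)
      have hbq : -b ≤ q ^ 2 := by linarith [le_max_right a (-(q ^ 2))]
      have hbpos : 0 < -b := by
        have : b < 0 := max_lt ha0 (by have := pow_pos hq0 2; linarith)
        linarith
      have e : (√(b ^ 2 + Y ^ 2) - b) / 2 = -b := by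
        rw [hY, show b ^ 2 + (0 : ℝ) ^ 2 = (-b) ^ 2 by ring, Real.sqrt_sq hbpos.le]
        ring
      have h1 : √(-b) ≤ q := by
        rw [← Real.sqrt_sq hq0.le]
        exact Real.sqrt_le_sqrt hbq
      have h2 : |X| + |a| + 1 ≤ d ^ 3 / √(-b) := by
        rw [le_div_iff₀ (Real.sqrt_pos.2 hbpos)]
        rw [hq, le_div_iff₀ (by positivity)] at h1
        linarith
      show X ≤ b + d ^ 3 / √((√(b ^ 2 + Y ^ 2) - b) / 2)
      rw [e]
      linarith [le_max_left a (-(q ^ 2)), le_abs_self X, neg_abs_le a]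
    · refine ⟨max a X, le_max_left _ _, .inl hY, ?_⟩
      show X ≤ max a X + _
      have : 0 ≤ d ^ 3 / √((√((max a X) ^ 2 + Y ^ 2) - max a X) / 2) := by positivity
      linarith [le_max_right a X]
  have hmem : ∀ x ∈ Icc a b, Y ≠ 0 ∨ x < 0 := fun x hx =>
    hb.imp id fun h => lt_of_le_of_lt hx.2 h
  obtain ⟨x, hx, hxX⟩ := intermediate_value_Icc hab (hcont _ hmem) ⟨hFa, hFb⟩
  exact ⟨x, hmem x hx, hxX⟩

theorem angle_strictMono {d : ℝ} (hd : 0 < d) {s t : ℝ} (hs : 0 ≤ s) (ht : t ≤ 1) (h : s < t) :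
    s + d * (arcsin (2 * s - 1) + π / 2) < t + d * (arcsin (2 * t - 1) + π / 2) := by
  have := monotone_arcsin (show 2 * s - 1 ≤ 2 * t - 1 by linarith)
  nlinarith

theorem injOn_S {d : ℝ} (hd : 0 < d) : InjOn (S d) strip := by
  intro p hp q hq h
  obtain ⟨h1, h2⟩ := Prod.ext_iff.1 h
  simp only [S] at h1 h2
  have hπ : (1 + d * π) ≠ 0 := by positivity
  rw [div_left_inj' hπ] at h2
  have ht : p.2 = q.2 := by
    rcases lt_trichotomy p.2 q.2 with h' | h' | h'
    · exact absurd h2 (angle_strictMono hd hp.2.1.le hq.2.2.le h').ne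
    · exact h'
    · exact absurd h2 (angle_strictMono hd hq.2.1.le hp.2.2.le h').ne'
  rw [ht, div_left_inj' (den_pos hd hq.2).ne'] at h1
  have h1 := mul_left_cancel₀ hπ h1
  refine Prod.ext ?_ ht
  have hs := sin_pos_of_mem hq.2
  have mono : StrictMonoOn (fun u => π * u ^ 4 + 2 * π * d ^ 3 * u / sin (π * q.2)) (Ici 0) := by
    intro a ha b _ hab
    have ha0 : (0 : ℝ) ≤ a := ha
    simp only
    gcongr
  exact mono.injOn (Set.mem_Ici.2 (le_of_lt hp.1)) (Set.mem_Ici.2 (le_of_lt hq.1)) h1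

theorem S_mem {d : ℝ} (hd : 0 < d) {p : ℝ × ℝ} (hp : p ∈ strip) :
    0 < (S d p).1 ∧ 0 < (S d p).2 ∧ (S d p).2 < 1 := by
  have h1 := sin_pos_of_mem hp.2
  have h2 := den_pos hd hp.2
  have h3 : (0 : ℝ) < p.1 := hp.1
  have hπ := pi_pos
  have h4 : -(π / 2) ≤ arcsin (2 * p.2 - 1) := neg_pi_div_two_le_arcsin _
  have h5 : arcsin (2 * p.2 - 1) ≤ π / 2 := arcsin_le_pi_div_two _
  refine ⟨by simp only [S]; positivity, ?_, ?_⟩
  · simp only [S]
    have : 0 ≤ d * (arcsin (2 * p.2 - 1) + π / 2) := mul_nonneg hd.le (by linarith)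
    have := hp.2.1
    positivity
  · simp only [S]
    rw [div_lt_one (by positivity)]
    have := mul_le_mul_of_nonneg_left (show arcsin (2 * p.2 - 1) + π / 2 ≤ π by linarith) hd.le
    linarith [hp.2.2]

theorem two_mul_prod_le_sin {t : ℝ} (ht : t ∈ Ioo (0 : ℝ) 1) : t * (1 - t) ≤ sin (π * t) / 2 := by
  have hπ := pi_pos
  rcases le_total t (1 / 2) with h | h
  · have := Real.mul_le_sin (x := π * t) (by have := ht.1; positivity) (by nlinarith)
    rw [show 2 / π * (π * t) = 2 * t by field_simp] at this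
    nlinarith [ht.1]
  · have := Real.mul_le_sin (x := π * (1 - t)) (mul_nonneg hπ.le (by linarith [ht.2]))
      (by nlinarith)
    rw [show 2 / π * (π * (1 - t)) = 2 * (1 - t) by field_simp,
      show π * (1 - t) = π - π * t by ring, sin_pi_sub] at this
    nlinarith [ht.2]

/-- The action grows by little. -/
theorem S_fst_le {d L : ℝ} (hd : 0 < d) (hd1 : d ≤ 1) (hL : 1 ≤ L) {p : ℝ × ℝ} (hp : p ∈ strip)
    (hz : (Psi d p).1 ^ 2 + (Psi d p).2 ^ 2 ≤ L ^ 2) :
    (S d p).1 ≤ (1 + d * π) * (π * ((Psi d p).1 ^ 2 + (Psi d p).2 ^ 2 + 3 * L * d ^ 2)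
      + 2 * π * √(d * (4 * L) ^ 3)) := by
  obtain ⟨u, t⟩ := p
  have hu : 0 < u := hp.1
  have hπ := pi_pos
  have hs := sin_pos_of_mem hp.2
  have hw := wgt_pos hp.2
  have hden := den_pos hd hp.2
  set x := u ^ 2 * cos (2 * π * t) with hx
  set y := u ^ 2 * sin (2 * π * t) with hy
  set φ := d ^ 3 / (u * sin (π * t)) with hφ
  have hφ0 : 0 < φ := by positivity
  have hz' : (x + φ) ^ 2 + y ^ 2 ≤ L ^ 2 := hz
  have hX : |x + φ| ≤ L := abs_le_of_sq_le_sq (by nlinarith [sq_nonneg y]) (by linarith)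
  have hxb : |x| ≤ |x + φ| + d ^ 2 := by
    rcases le_or_gt (-(d ^ 2)) x with h | h
    · rcases le_or_gt 0 x with h0 | h0
      · rw [abs_of_nonneg h0, abs_of_nonneg (by linarith)]; nlinarith
      · rw [abs_of_neg h0]; linarith [abs_nonneg (x + φ)]
    · have h2 : d ≤ u * sin (π * t) := by
        refine (pow_le_pow_iff_left₀ hd.le (by positivity) two_ne_zero).1 ?_
        have e := (radius_facts (p := (u, t))).2
        simp only at e
        rw [e, ← hx]
        nlinarith [abs_cos_le_one (2 * π * t), neg_abs_le (cos (2 * π * t)),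
          le_abs_self (cos (2 * π * t)), sq_nonneg u]
      have h3 : φ ≤ d ^ 2 := by
        rw [hφ, div_le_iff₀ (by positivity), pow_succ d 2]
        exact mul_le_mul_of_nonneg_left h2 (sq_nonneg d)
      rw [abs_of_neg (by nlinarith)]
      linarith [neg_abs_le (x + φ)]
  have hd2 : d ^ 2 ≤ 1 := pow_le_one₀ hd.le hd1
  have hr : (u ^ 2) ^ 2 ≤ (x + φ) ^ 2 + y ^ 2 + 3 * L * d ^ 2 := by
    have e := (radius_facts (p := (u, t))).1
    simp only at e
    rw [← e, ← hx, ← hy, ← sq_abs x, ← sq_abs (x + φ)]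
    nlinarith [abs_nonneg x, abs_nonneg (x + φ)]
  have hu2 : u ^ 2 ≤ 3 * L := by
    refine (pow_le_pow_iff_left₀ (sq_nonneg u) (by linarith) two_ne_zero).1 ?_
    nlinarith
  have hφL : φ ≤ 3 * L := by
    have := abs_le.1 hX
    have := abs_le.1 (le_trans hxb (add_le_add hX hd2))
    linarith
  -- the term from the channel
  have hT : d ^ 3 * u / sin (π * t) / (1 + d * wgt t) ≤ √(d * (4 * L) ^ 3) := by
    refine Real.le_sqrt_of_sq_le ?_
    have h1 : d ^ 3 * u / sin (π * t) / (1 + d * wgt t)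
        ≤ d ^ 3 * u / sin (π * t) / (d * wgt t) := by
      gcongr
      linarith
    refine (pow_le_pow_left₀ (by positivity) h1 2).trans ?_
    have hsq : (wgt t)⁻¹ ^ 2 = t * (1 - t) := by
      rw [wgt, inv_inv, Real.sq_sqrt (prod_pos_of_mem hp.2).le]
    calc (d ^ 3 * u / sin (π * t) / (d * wgt t)) ^ 2
        = d ^ 4 * u ^ 2 / sin (π * t) ^ 2 * (wgt t)⁻¹ ^ 2 := by field_simp
      _ ≤ d ^ 4 * u ^ 2 / sin (π * t) ^ 2 * (sin (π * t) / 2) := by
          rw [hsq]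
          exact mul_le_mul_of_nonneg_left (two_mul_prod_le_sin hp.2) (by positivity)
      _ = d * u ^ 3 * φ / 2 := by rw [hφ]; field_simp
      _ ≤ d * (4 * L) ^ 3 := by
          have hu1 : u ≤ 3 * L := by nlinarith
          have : u ^ 3 ≤ (3 * L) * (3 * L) := by
            calc u ^ 3 = u ^ 2 * u := by ring
              _ ≤ (3 * L) * (3 * L) := mul_le_mul hu2 hu1 hu.le (by linarith)
          calc d * u ^ 3 * φ / 2 ≤ d * u ^ 3 * φ := by
                linarith [show 0 ≤ d * u ^ 3 * φ by positivity]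
            _ ≤ d * ((3 * L) * (3 * L)) * (3 * L) := by gcongr
            _ ≤ d * (4 * L) ^ 3 := by nlinarith [pow_pos (show 0 < L by linarith) 3]
  show (1 + d * π) * (π * u ^ 4 + 2 * π * d ^ 3 * u / sin (π * t)) / (1 + d * wgt t) ≤ _
  rw [mul_div_assoc, add_div]
  have h4 : π * u ^ 4 / (1 + d * wgt t) ≤ π * ((x + φ) ^ 2 + y ^ 2 + 3 * L * d ^ 2) := by
    refine le_trans (div_le_self (by positivity) (by linarith [mul_pos hd hw])) ?_
    rw [show u ^ 4 = (u ^ 2) ^ 2 by ring]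
    exact mul_le_mul_of_nonneg_left hr hπ.le
  have h5 : 2 * π * d ^ 3 * u / sin (π * t) / (1 + d * wgt t) ≤ 2 * π * √(d * (4 * L) ^ 3) := by
    rw [show 2 * π * d ^ 3 * u / sin (π * t) / (1 + d * wgt t)
      = 2 * π * (d ^ 3 * u / sin (π * t) / (1 + d * wgt t)) by ring]
    exact mul_le_mul_of_nonneg_left hT (by positivity)
  exact mul_le_mul_of_nonneg_left (add_le_add h4 h5) (by positivity)

/-- A disc goes area preservingly into a strip, with the action growing by at most `ε`. -/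
theorem exists_stripMap (R ε : ℝ) (hε : 0 < ε) :
    ∃ σ : ℂ → ℝ × ℝ, InjOn σ {z | π * ‖z‖ ^ 2 < R} ∧ ∀ z : ℂ, π * ‖z‖ ^ 2 < R →
      ContDiffAt ℝ ∞ σ z ∧ (∀ v w : ℂ, area (fderiv ℝ σ z v) (fderiv ℝ σ z w)
        = v.re * w.im - v.im * w.re) ∧
      0 < (σ z).1 ∧ (σ z).1 ≤ π * ‖z‖ ^ 2 + ε ∧ 0 < (σ z).2 ∧ (σ z).2 < 1 := by
  classical
  set L : ℝ := |R| + 1
  have hL : 1 ≤ L := by linarith [abs_nonneg R]
  obtain ⟨d, hd, hd1, hsmall⟩ : ∃ d : ℝ, 0 < d ∧ d ≤ 1 ∧
      (1 + d * π) * (π * (3 * L * d ^ 2) + 2 * π * √(d * (4 * L) ^ 3)) + d * π * |R| < ε := by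
    have hc : Continuous fun d : ℝ =>
        (1 + d * π) * (π * (3 * L * d ^ 2) + 2 * π * √(d * (4 * L) ^ 3)) + d * π * |R| := by
      fun_prop
    have ht := hc.tendsto 0
    simp only [zero_mul, add_zero, mul_zero, ne_eq, OfNat.ofNat_ne_zero, not_false_eq_true,
      zero_pow, Real.sqrt_zero] at ht
    obtain ⟨δ, hδ, hball⟩ := Metric.mem_nhds_iff.1 (ht.eventually (eventually_lt_nhds hε))
    refine ⟨min (δ / 2) 1, by positivity, min_le_right _ _, hball ?_⟩
    rw [Metric.mem_ball, Real.dist_eq, sub_zero, abs_of_pos (by positivity)]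
    linarith [min_le_left (δ / 2) 1]
  choose inv hinv_mem hinv using fun P : ℝ × ℝ => exists_preimage hd P
  have hleft : ∀ p ∈ strip, inv (Psi d p) = p := fun p hp =>
    injOn_Psi hd (hinv_mem _) hp (hinv _)
  have hsm : ∀ P, ContDiffAt ℝ ∞ inv P ∧ ∀ v w,
      area (fderiv ℝ (S d ∘ inv) P v) (fderiv ℝ (S d ∘ inv) P w) = area v w := by
    intro P
    set p := inv P with hp_def
    have hp : p ∈ strip := hinv_mem P
    have hPp : Psi d p = P := hinv P
    have hdiff := contDiffAt_Psi d hp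
    have hdet := det_pos hd hp
    rw [← fderiv_Psi_area hp] at hdet
    have hinj : Function.Injective (fderiv ℝ (Psi d) p) := by
      rw [injective_iff_map_eq_zero]
      intro v hv
      have h1 := area_map (fderiv ℝ (Psi d) p) v (1, 0)
      have h2 := area_map (fderiv ℝ (Psi d) p) v (0, 1)
      rw [hv] at h1 h2
      simp [area] at h1 h2
      rcases h1 with h1 | h1
      · simp [area, h1] at hdet
      rcases h2 with h2 | h2
      · simp [area, h2] at hdet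
      exact Prod.ext h2 h1
    let e : (ℝ × ℝ) ≃L[ℝ] (ℝ × ℝ) :=
      (LinearEquiv.ofInjectiveEndo (fderiv ℝ (Psi d) p).toLinearMap hinj).toContinuousLinearEquiv
    have he : HasFDerivAt (Psi d) (e : ℝ × ℝ →L[ℝ] ℝ × ℝ) p :=
      (hdiff.differentiableAt (by simp)).hasFDerivAt
    have hloc := hdiff.to_localInverse he (by simp)
    have hev : inv =ᶠ[nhds P] hdiff.localInverse he (by simp) := by
      set g := hdiff.localInverse he (by simp)
      have hg : g (Psi d p) = p := hdiff.localInverse_apply_image he (by simp)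
      have hr : ∀ᶠ Q in nhds (Psi d p), Psi d (g Q) = Q :=
        (hdiff.hasStrictFDerivAt' he (by simp)).eventually_right_inverse
      have hmem : ∀ᶠ Q in nhds (Psi d p), g Q ∈ strip :=
        hloc.continuousAt.preimage_mem_nhds (by rw [hg]; exact isOpen_strip.mem_nhds hp)
      rw [← hPp]
      filter_upwards [hr, hmem] with Q h1 h2
      rw [← hleft _ h2, h1]
    have hinvC : ContDiffAt ℝ ∞ inv P := (hPp ▸ hloc).congr_of_eventuallyEq hev
    refine ⟨hinvC, fun v w => ?_⟩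
    have hi : HasFDerivAt inv (fderiv ℝ inv P) P :=
      (hinvC.differentiableAt (by simp)).hasFDerivAt
    have hid : ∀ v, fderiv ℝ (Psi d) p (fderiv ℝ inv P v) = v := by
      intro v
      have h1 : HasFDerivAt (Psi d ∘ inv) ((fderiv ℝ (Psi d) p).comp (fderiv ℝ inv P)) P :=
        (hdiff.differentiableAt (by simp)).hasFDerivAt.comp P hi
      rw [show Psi d ∘ inv = id from funext hinv] at h1
      exact congrFun (congrArg DFunLike.coe (h1.unique (hasFDerivAt_id P))) v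
    rw [fderiv_comp P ((contDiffAt_S hd hp).differentiableAt (by simp))
      (hinvC.differentiableAt (by simp))]
    simp only [ContinuousLinearMap.comp_apply, ← hp_def]
    rw [area_map, fderiv_S_area hd hp, ← fderiv_Psi_area hp, ← area_map, hid, hid]
  let c : ℂ →L[ℝ] ℝ × ℝ := Complex.reCLM.prod Complex.imCLM
  have hcnorm : ∀ z : ℂ, (c z).1 ^ 2 + (c z).2 ^ 2 = ‖z‖ ^ 2 := by
    intro z
    rw [Complex.sq_norm, Complex.normSq_apply]
    simp [c, sq]
  refine ⟨fun z => S d (inv (c z)), ?_, fun z hz => ⟨?_, ?_, ?_⟩⟩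
  · intro z _ z' _ h
    have h1 := congrArg (Psi d) (injOn_S hd (hinv_mem _) (hinv_mem _) h)
    rw [hinv, hinv] at h1
    simp [c] at h1
    exact Complex.ext h1.1 h1.2
  · exact (contDiffAt_S hd (hinv_mem _)).comp z ((hsm _).1.comp z c.contDiff.contDiffAt)
  · intro v w
    have h : HasFDerivAt (fun z => S d (inv (c z))) ((fderiv ℝ (S d ∘ inv) (c z)).comp c) z :=
      (((contDiffAt_S hd (hinv_mem _)).comp (c z) (hsm _).1).differentiableAt
        (by simp)).hasFDerivAt.comp z c.hasFDerivAt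
    rw [h.fderiv]
    exact (hsm _).2 (c v) (c w)
  · obtain ⟨h1, h2, h3⟩ := S_mem hd (hinv_mem (c z))
    refine ⟨h1, ?_, h2, h3⟩
    have hn : ‖z‖ ^ 2 ≤ L ^ 2 := by
      have : ‖z‖ ^ 2 ≤ π * ‖z‖ ^ 2 :=
        le_mul_of_one_le_left (sq_nonneg _) (by linarith [pi_gt_three])
      nlinarith [le_abs_self R]
    have h4 := S_fst_le hd hd1 hL (hinv_mem (c z)) (by rw [hinv, hcnorm]; exact hn)
    rw [hinv, hcnorm] at h4
    have h5 : d * π * (π * ‖z‖ ^ 2) ≤ d * π * |R| :=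
      mul_le_mul_of_nonneg_left (by linarith [le_abs_self R]) (by positivity)
    show (S d (inv (c z))).1 ≤ _
    linarith

end P209
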