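import Mathlib
import Vale.Agent.P209.Defs
import Vale.Agent.P209.Strip

/-!
P209: a ball of capacity `r < S` goes symplectically into the toric region over the image of the
open simplex of size `S` under an integer unimodular affine map.
-/

namespace P209

open Real Set Matrix
open scoped ContDiff

/-- The open simplex of size `S`. -/
def simplexSet (n : ℕ) (S : ℝ) : Set (Fin n → ℝ) := {x | (∀ j, 0 < x j) ∧ ∑ j, x j < S}

/-- The chart from action and angle to the plane. -/
noncomputable def chart (p : ℝ × ℝ) : ℂ :=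
  ⟨√(p.1 / π) * cos (2 * π * p.2), √(p.1 / π) * sin (2 * π * p.2)⟩

theorem chart_eq (p : ℝ × ℝ) :
    chart p = ((√(p.1 / π) * cos (2 * π * p.2) : ℝ) : ℂ)
      + ((√(p.1 / π) * sin (2 * π * p.2) : ℝ) : ℂ) * Complex.I := by
  rw [chart, Complex.mk_eq_add_mul_I]

theorem contDiffAt_chart {p : ℝ × ℝ} (hp : 0 < p.1) : ContDiffAt ℝ ∞ chart p := by
  have h : p.1 / π ≠ 0 := (div_pos hp pi_pos).ne'
  have e : chart = fun p => Complex.equivRealProdCLM.symm
      (√(p.1 / π) * cos (2 * π * p.2), √(p.1 / π) * sin (2 * π * p.2)) := by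
    funext q
    apply Complex.equivRealProdCLM.injective
    simp [chart]
  rw [e]
  exact Complex.equivRealProdCLM.symm.contDiff.contDiffAt.comp p
    (by fun_prop (disch := assumption))

theorem norm_sq_chart {p : ℝ × ℝ} (hp : 0 < p.1) : π * ‖chart p‖ ^ 2 = p.1 := by
  rw [Complex.sq_norm, Complex.normSq_apply]
  simp only [chart]
  have h : √(p.1 / π) * √(p.1 / π) = p.1 / π := mul_self_sqrt (div_pos hp pi_pos).le
  calc _ = π * (√(p.1 / π) * √(p.1 / π)) * (sin (2 * π * p.2) ^ 2 + cos (2 * π * p.2) ^ 2) := by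
        ring
    _ = p.1 := by rw [h, sin_sq_add_cos_sq, mul_one]; field_simp

theorem chart_inj {p q : ℝ × ℝ} (hp : 0 < p.1) (hq : 0 < q.1) (h : chart p = chart q) :
    p.1 = q.1 ∧ ∃ m : ℤ, p.2 - q.2 = m := by
  have e : p.1 = q.1 := by rw [← norm_sq_chart hp, ← norm_sq_chart hq, h]
  refine ⟨e, ?_⟩
  have h0 : √(q.1 / π) ≠ 0 := (Real.sqrt_pos.2 (div_pos hq pi_pos)).ne'
  simp only [chart, Complex.mk.injEq, e] at h
  obtain ⟨j, hj⟩ := Real.Angle.angle_eq_iff_two_pi_dvd_sub.1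
    (Real.Angle.cos_sin_inj (mul_left_cancel₀ h0 h.1) (mul_left_cancel₀ h0 h.2))
  refine ⟨j, mul_left_cancel₀ (show (2 * π : ℝ) ≠ 0 by positivity) ?_⟩
  linarith

theorem area_chart {p : ℝ × ℝ} (hp : 0 < p.1) (a b : ℝ × ℝ) :
    (fderiv ℝ chart p a).re * (fderiv ℝ chart p b).im
      - (fderiv ℝ chart p a).im * (fderiv ℝ chart p b).re = area a b := by
  let c : ℂ →L[ℝ] ℝ × ℝ := Complex.reCLM.prod Complex.imCLM
  have hd : DifferentiableAt ℝ chart p := (contDiffAt_chart hp).differentiableAt (by simp)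
  have hcomp : fderiv ℝ (fun q => c (chart q)) p = c.comp (fderiv ℝ chart p) :=
    (c.hasFDerivAt.comp p hd.hasFDerivAt).fderiv
  have hd' : DifferentiableAt ℝ (fun q => c (chart q)) p := c.differentiableAt.comp p hd
  have hfe : (fun q => c (chart q)) = fun q : ℝ × ℝ =>
      (√(q.1 / π) * cos (2 * π * q.2), √(q.1 / π) * sin (2 * π * q.2)) := by
    funext q
    simp [c, chart]
  have key : area (c (fderiv ℝ chart p a)) (c (fderiv ℝ chart p b)) = area a b := by
    rw [← ContinuousLinearMap.comp_apply, ← ContinuousLinearMap.comp_apply, ← hcomp, area_map]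
    obtain ⟨u, t⟩ := p
    have hu : 0 < u := hp
    have h2 : HasDerivAt (fun s : ℝ => 2 * π * s) (2 * π) t := by
      simpa using (hasDerivAt_id t).const_mul (2 * π)
    have h1 : HasDerivAt (fun s : ℝ => √(s / π)) (1 / π / (2 * √(u / π))) u :=
      ((hasDerivAt_id u).div_const π).sqrt (div_pos hu pi_pos).ne'
    rw [hfe] at hd' ⊢
    rw [fderiv_fst_dir hd' ((h1.mul_const (cos (2 * π * t))).prodMk
        (h1.mul_const (sin (2 * π * t)))),
      fderiv_snd_dir hd' ((h2.cos.const_mul √(u / π)).prodMk (h2.sin.const_mul √(u / π)))]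
    have hs : √(u / π) ≠ 0 := (Real.sqrt_pos.2 (div_pos hu pi_pos)).ne'
    simp only [area]
    field_simp
    rw [show π * 2 * t = 2 * π * t by ring]
    linear_combination (a.1 * b.2 - a.2 * b.1) * sin_sq_add_cos_sq (2 * π * t)
  simpa [area, c] using key

/-- The toric embedding attached to an integer unimodular affine map. -/
theorem exists_toric_embedding {n : ℕ} {r S : ℝ} (hrS : r < S)
    (A B : Matrix (Fin n) (Fin n) ℤ) (hAB : A * B = 1) (b : Fin n → ℝ)
    (hpos : ∀ x ∈ simplexSet n S, ∀ j, 0 < ((A.map (Int.cast : ℤ → ℝ)) *ᵥ x + b) j) :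
    ∃ φ : (Fin n → ℂ) → (Fin n → ℂ), IsSympEmbedding n r φ ∧
      ∀ z ∈ closedCapBall n r, ∃ x ∈ simplexSet n S,
        ∀ j, π * ‖φ z j‖ ^ 2 = ((A.map (Int.cast : ℤ → ℝ)) *ᵥ x + b) j := by
  have hBA : B * A = 1 := mul_eq_one_comm.1 hAB
  set Ar : Matrix (Fin n) (Fin n) ℝ := A.map (Int.cast : ℤ → ℝ) with hAr
  set Br : Matrix (Fin n) (Fin n) ℝ := B.map (Int.cast : ℤ → ℝ) with hBr
  have hBAr : Br * Ar = 1 := by
    have h := congrArg (Int.castRingHom ℝ).mapMatrix hBA
    rw [map_mul, map_one] at h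
    exact h
  have pair : ∀ v w : Fin n → ℝ, Ar *ᵥ v ⬝ᵥ (Brᵀ *ᵥ w) = v ⬝ᵥ w := by
    intro v w
    rw [dotProduct_comm, dotProduct_mulVec, ← mulVec_transpose, mulVec_mulVec, ← transpose_mul,
      hBAr, transpose_one, one_mulVec, dotProduct_comm]
  set r' := (r + S) / 2 with hr'
  set ε := (S - r') / (n + 1) with hε
  have hε0 : 0 < ε := div_pos (by linarith) (by positivity)
  obtain ⟨σ, hσinj, hσ⟩ := exists_stripMap r' ε hε0
  set U : Set (Fin n → ℂ) := {z | π * ∑ j, ‖z j‖ ^ 2 < r'} with hUdef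
  have hU : IsOpen U := isOpen_lt (by fun_prop) continuous_const
  have hsub : closedCapBall n r ⊆ U := fun z hz =>
    lt_of_le_of_lt (show π * ∑ j, ‖z j‖ ^ 2 ≤ r from hz) (show r < r' by linarith)
  have hcoord : ∀ z ∈ U, ∀ j, π * ‖z j‖ ^ 2 < r' := fun z hz j =>
    lt_of_le_of_lt (mul_le_mul_of_nonneg_left
      (Finset.single_le_sum (f := fun j => ‖z j‖ ^ 2) (fun _ _ => sq_nonneg _)
        (Finset.mem_univ j)) pi_pos.le) hz
  let act : (Fin n → ℂ) → Fin n → ℝ := fun z l => (σ (z l)).1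
  let ang : (Fin n → ℂ) → Fin n → ℝ := fun z l => (σ (z l)).2
  let p : (Fin n → ℂ) → Fin n → ℝ × ℝ := fun z j =>
    ((Ar *ᵥ act z + b) j, (Brᵀ *ᵥ ang z) j)
  have hact : ∀ z ∈ U, act z ∈ simplexSet n S := by
    intro z hz
    refine ⟨fun j => ((hσ _ (hcoord z hz j)).2.2).1, ?_⟩
    have h : ∑ j, act z j ≤ ∑ j, (π * ‖z j‖ ^ 2 + ε) :=
      Finset.sum_le_sum fun j _ => ((hσ _ (hcoord z hz j)).2.2).2.1
    rw [Finset.sum_add_distrib, ← Finset.mul_sum, Finset.sum_const, Finset.card_univ,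
      Fintype.card_fin, nsmul_eq_mul] at h
    have hn : (n : ℝ) * ε + ε = S - r' := by rw [hε]; field_simp
    have : π * ∑ j, ‖z j‖ ^ 2 < r' := hz
    linarith
  have hp0 : ∀ z ∈ U, ∀ j, 0 < (p z j).1 := fun z hz j => hpos _ (hact z hz) j
  have hσC : ∀ z ∈ U, ∀ l, ContDiffAt ℝ ∞ (fun w : Fin n → ℂ => σ (w l)) z := fun z hz l =>
    ((hσ _ (hcoord z hz l)).1).comp z (contDiff_apply ℝ ℂ l).contDiffAt
  have hpC : ∀ z ∈ U, ∀ j, ContDiffAt ℝ ∞ (fun w => p w j) z := by
    intro z hz j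
    simp only [p, act, ang, Matrix.mulVec, dotProduct, Pi.add_apply]
    refine ContDiffAt.prodMk ?_ ?_
    · exact (ContDiffAt.sum fun l _ => contDiffAt_const.mul (hσC z hz l).fst).add contDiffAt_const
    · exact ContDiffAt.sum fun l _ => contDiffAt_const.mul (hσC z hz l).snd
  refine ⟨fun z j => chart (p z j), ?_, fun z hz => ⟨act z, hact z (hsub hz), fun j =>
    norm_sq_chart (hp0 z (hsub hz) j)⟩⟩
  have hφC : ∀ z ∈ U, ∀ j, ContDiffAt ℝ ∞ (fun w => chart (p w j)) z := fun z hz j =>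
    ContDiffAt.comp (g := chart) (f := fun w => p w j) z (contDiffAt_chart (hp0 z hz j))
      (hpC z hz j)
  have hinj : InjOn (fun z j => chart (p z j)) U := by
    intro z hz z' hz' h
    have hj := fun j => chart_inj (hp0 z hz j) (hp0 z' hz' j) (congrFun h j)
    have ha : act z = act z' := by
      have e : Ar *ᵥ act z = Ar *ᵥ act z' := funext fun j => by
        have := (hj j).1
        simp only [p, Pi.add_apply] at this
        linarith
      have := congrArg (fun x => Br *ᵥ x) e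
      simpa [mulVec_mulVec, hBAr] using this
    choose m hm using fun j => (hj j).2
    have hθ : ∀ l, ang z l - ang z' l = (((Aᵀ *ᵥ m) l : ℤ) : ℝ) := by
      have e : Brᵀ *ᵥ (ang z - ang z') = fun j => (m j : ℝ) := funext fun j => by
        rw [mulVec_sub, Pi.sub_apply]
        exact hm j
      intro l
      have := congrFun (congrArg (fun x => Arᵀ *ᵥ x) e) l
      rw [mulVec_mulVec, ← transpose_mul, hBAr, transpose_one, one_mulVec] at this
      rw [← Pi.sub_apply, this]
      simp [hAr, Matrix.mulVec, dotProduct]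
    funext l
    refine hσinj (hcoord z hz l) (hcoord z' hz' l) (Prod.ext (congrFun ha l) ?_)
    obtain ⟨-, -, h1, h2⟩ := (hσ _ (hcoord z hz l)).2.2
    obtain ⟨-, -, h1', h2'⟩ := (hσ _ (hcoord z' hz' l)).2.2
    have e := hθ l
    simp only [ang] at e
    have e0 : (Aᵀ *ᵥ m) l = 0 := by
      have a1 : (-1 : ℝ) < (((Aᵀ *ᵥ m) l : ℤ) : ℝ) := by linarith
      have a2 : (((Aᵀ *ᵥ m) l : ℤ) : ℝ) < 1 := by linarith
      have b1 : (-1 : ℤ) < (Aᵀ *ᵥ m) l := by exact_mod_cast a1
      have b2 : (Aᵀ *ᵥ m) l < 1 := by exact_mod_cast a2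
      omega
    rw [e0, Int.cast_zero] at e
    linarith
  have hω : ∀ z ∈ U, ∀ v w, omega (fderiv ℝ (fun z j => chart (p z j)) z v)
      (fderiv ℝ (fun z j => chart (p z j)) z w) = omega v w := by
    intro z hz v w
    have hpd : ∀ j u, fderiv ℝ (fun w => p w j) z u
        = ((Ar *ᵥ fun l => (fderiv ℝ σ (z l) (u l)).1) j,
          (Brᵀ *ᵥ fun l => (fderiv ℝ σ (z l) (u l)).2) j) := by
      intro j u
      have hl : ∀ l, HasFDerivAt (fun w : Fin n → ℂ => σ (w l))
          ((fderiv ℝ σ (z l)).comp (ContinuousLinearMap.proj l)) z := fun l =>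
        (((hσ _ (hcoord z hz l)).1.differentiableAt (by simp)).hasFDerivAt).comp z
          (hasFDerivAt_apply l z)
      have h := ((HasFDerivAt.fun_sum (u := Finset.univ) fun l _ =>
          ((hl l).fst.const_mul (Ar j l))).add_const (b j)).prodMk
        (HasFDerivAt.fun_sum (u := Finset.univ) fun l _ => ((hl l).snd.const_mul (Brᵀ j l)))
      have e : fderiv ℝ (fun w => p w j) z = _ := h.fderiv
      rw [e]
      simp [Matrix.mulVec, dotProduct]
    have hφd : ∀ j u, fderiv ℝ (fun z j => chart (p z j)) z u j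
        = fderiv ℝ chart (p z j) (fderiv ℝ (fun w => p w j) z u) := by
      intro j u
      rw [fderiv_pi (fun j => (hφC z hz j).differentiableAt (by simp))]
      simp only [ContinuousLinearMap.pi_apply]
      exact congrFun (congrArg DFunLike.coe (((contDiffAt_chart (hp0 z hz j)).differentiableAt
        (by simp)).hasFDerivAt.comp z
          ((hpC z hz j).differentiableAt (by simp)).hasFDerivAt).fderiv) u
    let av : Fin n → ℝ := fun l => (fderiv ℝ σ (z l) (v l)).1
    let cv : Fin n → ℝ := fun l => (fderiv ℝ σ (z l) (v l)).2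
    let aw : Fin n → ℝ := fun l => (fderiv ℝ σ (z l) (w l)).1
    let cw : Fin n → ℝ := fun l => (fderiv ℝ σ (z l) (w l)).2
    calc omega (fderiv ℝ (fun z j => chart (p z j)) z v)
          (fderiv ℝ (fun z j => chart (p z j)) z w)
        = ∑ j, area ((Ar *ᵥ av) j, (Brᵀ *ᵥ cv) j) ((Ar *ᵥ aw) j, (Brᵀ *ᵥ cw) j) := by
          refine Finset.sum_congr rfl fun j _ => ?_
          rw [hφd, hφd, area_chart (hp0 z hz j), hpd, hpd]
      _ = Ar *ᵥ av ⬝ᵥ (Brᵀ *ᵥ cw) - Ar *ᵥ aw ⬝ᵥ (Brᵀ *ᵥ cv) := by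
          simp only [area, dotProduct, ← Finset.sum_sub_distrib]
          exact Finset.sum_congr rfl fun j _ => by ring
      _ = av ⬝ᵥ cw - aw ⬝ᵥ cv := by rw [pair, pair]
      _ = ∑ j, area (fderiv ℝ σ (z j) (v j)) (fderiv ℝ σ (z j) (w j)) := by
          simp only [area, dotProduct, ← Finset.sum_sub_distrib, av, aw, cv, cw]
          exact Finset.sum_congr rfl fun j _ => by ring
      _ = omega v w := Finset.sum_congr rfl fun j _ => (hσ _ (hcoord z hz j)).2.1 _ _
  have hC : ContDiffOn ℝ ∞ (fun z j => chart (p z j)) U := fun z hz =>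
    (contDiffAt_pi.2 fun j => hφC z hz j).contDiffWithinAt
  exact ⟨U, hU, hsub, hC, isOpenEmbedding_of_omega hU hC hinj hω, hω⟩

end P209
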