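import Mathlib
import Vale.Agent.P209.Toric

/-!
P209: `2^n` lattice simplices of size `S` inside the open simplex of size `2 S + h`.

In the coordinates `y i = ∑_{m ≥ i} x m` the simplex is `R > y 0 > ⋯ > y (n-1) > 0`. The piece of
`T ⊆ Fin n` is the image of `u ↦ sort (u + S on T)`, with `y 0` shifted by a constant.
-/

namespace P209

open Real Set Matrix

variable {n : ℕ}

/-- The suffix sum matrix. -/
def suffixMat (n : ℕ) : Matrix (Fin n) (Fin n) ℤ := Matrix.of fun i m => if i ≤ m then 1 else 0

theorem det_suffixMat (n : ℕ) : (suffixMat n).det = 1 := by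
  have h : (suffixMat n).BlockTriangular id := by
    intro i j hij
    simp only [suffixMat, Matrix.of_apply, id_eq] at *
    rw [if_neg (not_le.2 hij)]
  rw [det_of_isUpperTriangular h]
  simp [suffixMat]

/-- The key which lists `T` first. -/
def key (T : Finset (Fin n)) (m : Fin n) : ℕ := if m ∈ T then (m : ℕ) else n + m

theorem strictMono_key (T : Finset (Fin n)) :
    StrictMono (key T ∘ Tuple.sort (key T)) := by
  refine (Tuple.monotone_sort (key T)).strictMono_of_injective
    (Function.Injective.comp (fun a b h => ?_) (Equiv.injective _))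
  have := a.isLt
  have := b.isLt
  simp only [key] at h
  split_ifs at h <;> omega

/-- The suffix sums of `x`. -/
def suffix (x : Fin n → ℝ) (m : Fin n) : ℝ := ∑ l ∈ Finset.Ici m, x l

theorem suffix_strictAnti {x : Fin n → ℝ} (hx : ∀ j, 0 < x j) : StrictAnti (suffix x) := by
  intro a b hab
  exact Finset.sum_lt_sum_of_subset (Finset.Ici_subset_Ici.2 hab.le) (Finset.mem_Ici.2 le_rfl)
    (fun h => (not_le.2 hab) (Finset.mem_Ici.1 h)) (hx a) fun j _ _ => (hx j).le

theorem suffix_bounds {x : Fin n → ℝ} {S : ℝ} (hx : x ∈ simplexSet n S) (m : Fin n) :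
    0 < suffix x m ∧ suffix x m < S :=
  ⟨Finset.sum_pos (fun j _ => hx.1 j) ⟨m, Finset.mem_Ici.2 le_rfl⟩,
    lt_of_le_of_lt (Finset.sum_le_sum_of_subset_of_nonneg (Finset.subset_univ _)
      fun j _ _ => (hx.1 j).le) hx.2⟩

theorem suffix_eq_add (x : Fin n → ℝ) (i : Fin n) :
    suffix x i = x i + ∑ l ∈ Finset.Ioi i, x l := by
  rw [suffix, ← Finset.Ioi_insert, Finset.sum_insert (by simp)]

/-- A vector with strictly decreasing positive suffix sums is positive. -/
theorem pos_of_suffix {x : Fin n → ℝ} (hp : ∀ i, 0 < suffix x i) (ha : StrictAnti (suffix x))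
    (i : Fin n) : 0 < x i := by
  have h := suffix_eq_add x i
  by_cases hi : (i : ℕ) + 1 < n
  · have e : Finset.Ioi i = Finset.Ici (⟨i + 1, hi⟩ : Fin n) := by
      ext l
      simp only [Finset.mem_Ioi, Finset.mem_Ici, Fin.lt_def, Fin.le_def]
      omega
    rw [e] at h
    have h2 : suffix x ⟨i + 1, hi⟩ < suffix x i := ha (by simp [Fin.lt_def])
    simp only [suffix] at h h2 ⊢
    linarith
  · have e : Finset.Ioi i = ∅ := by
      ext l
      have := l.isLt
      simp only [Finset.mem_Ioi, Fin.lt_def, Finset.notMem_empty, iff_false]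
      omega
    rw [e, Finset.sum_empty, add_zero] at h
    linarith [hp i]

/-- The values before sorting. -/
def raw (S : ℝ) (T : Finset (Fin n)) (u : Fin n → ℝ) (m : Fin n) : ℝ :=
  if m ∈ T then S + u m else u m

/-- The piece of `T`, in suffix coordinates. -/
def pieceY (S h : ℝ) (T : Finset (Fin n)) (u : Fin n → ℝ) (i : Fin n) : ℝ :=
  raw S T u (Tuple.sort (key T) i) + (if (i : ℕ) = 0 then h else 0)

theorem pieceY_props {S h : ℝ} (hS : 0 < S) (hh : 0 ≤ h) (T : Finset (Fin n)) {u : Fin n → ℝ}
    (hu : StrictAnti u) (hb : ∀ m, 0 < u m ∧ u m < S) :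
    StrictAnti (pieceY S h T u) ∧ ∀ i, 0 < pieceY S h T u i ∧ pieceY S h T u i < 2 * S + h ∧
      ((i : ℕ) = 0 → T.Nonempty → S + h < pieceY S h T u i) := by
  refine ⟨fun i j hij => ?_, fun i => ⟨?_, ?_, ?_⟩⟩
  · have hk := strictMono_key T hij
    set a := Tuple.sort (key T) i with ha
    set b := Tuple.sort (key T) j with hb'
    simp only [Function.comp, ← ha, ← hb', key] at hk
    have hj : (j : ℕ) ≠ 0 := by have := Fin.lt_def.1 hij; omega
    have h0 : 0 ≤ (if (i : ℕ) = 0 then h else 0) := by split_ifs <;> linarith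
    simp only [pieceY, raw, ← ha, ← hb', if_neg hj]
    have := a.isLt
    have := b.isLt
    have := hb a
    have := hb b
    split_ifs at hk ⊢ <;> first
      | omega
      | linarith [hu (show a < b by rw [Fin.lt_def]; omega)]
      | linarith
  · simp only [pieceY, raw]
    have := hb (Tuple.sort (key T) i)
    split_ifs <;> linarith
  · simp only [pieceY, raw]
    have := hb (Tuple.sort (key T) i)
    split_ifs <;> linarith
  · intro hi hT
    obtain ⟨m, hm⟩ := hT
    have hmem : Tuple.sort (key T) i ∈ T := by
      by_contra hc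
      have hle : i ≤ (Tuple.sort (key T)).symm m := by rw [Fin.le_def]; omega
      have := (strictMono_key T).monotone hle
      simp only [Function.comp, Equiv.apply_symm_apply, key, if_pos hm, if_neg hc] at this
      have := m.isLt
      omega
    simp only [pieceY, raw, if_pos hmem, if_pos hi]
    linarith [(hb (Tuple.sort (key T) i)).1]

theorem pieceY_inj {S h : ℝ} {T T' : Finset (Fin n)} {u u' : Fin n → ℝ} (hu : StrictAnti u)
    (hu' : StrictAnti u') (hb : ∀ m, 0 < u m ∧ u m < S) (hb' : ∀ m, 0 < u' m ∧ u' m < S)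
    (e : pieceY S h T u = pieceY S h T' u') : T = T' := by
  have hv : ∀ i, raw S T u (Tuple.sort (key T) i) = raw S T' u' (Tuple.sort (key T') i) := fun i =>
    by simpa [pieceY] using congrFun e i
  set τ : Equiv.Perm (Fin n) := (Tuple.sort (key T)).symm.trans (Tuple.sort (key T'))
  have hraw : ∀ m, raw S T u m = raw S T' u' (τ m) := fun m => by
    have := hv ((Tuple.sort (key T)).symm m)
    rwa [Equiv.apply_symm_apply] at this
  have hboth : ∀ m, (m ∈ T ↔ τ m ∈ T') ∧ u m = u' (τ m) := by
    intro m
    have h1 := hraw m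
    have := hb m
    have := hb' (τ m)
    simp only [raw] at h1
    split_ifs at h1 with c d d
    · exact ⟨iff_of_true c d, by linarith⟩
    · linarith
    · linarith
    · exact ⟨iff_of_false c d, h1⟩
  have hrange : Set.range u = Set.range u' := by
    rw [show u = u' ∘ τ from funext fun m => (hboth m).2]
    exact τ.surjective.range_comp u'
  have hneg : Set.range (fun m => -u m) = Set.range fun m => -u' m := by
    rw [show (fun m => -u m) = (fun x => -x) ∘ u from rfl,
      show (fun m => -u' m) = (fun x => -x) ∘ u' from rfl, Set.range_comp, Set.range_comp, hrange]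
  have huu : u = u' := by
    have := Set.range_injOn_strictMono (β := Fin n) (γ := ℝ) (show StrictMono fun m => -u m from
      hu.neg) (show StrictMono fun m => -u' m from hu'.neg) hneg
    funext m
    simpa using congrFun this m
  ext m
  have h1 := (hboth m).2
  rw [huu] at h1
  have := (hboth m).1
  rwa [← hu'.injective h1] at this

theorem suffix_zero_eq_sum (x : Fin n → ℝ) {i : Fin n} (hi : (i : ℕ) = 0) :
    suffix x i = ∑ l, x l := by
  rw [suffix, show Finset.Ici i = Finset.univ from
    Finset.eq_univ_of_forall fun l => Finset.mem_Ici.2 (by rw [Fin.le_def]; omega)]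

end P209
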