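import Mathlib
import Vale.Agent.P209.Pieces

/-!
P209: charts of the form permutation plus translation in suffix coordinates, the cubic grids and
the dyadic subdivision.
-/

namespace P209

open Real Set Matrix

variable {n : ℕ}

/-- The open simplex of size `s` in suffix coordinates. -/
def cell (n : ℕ) (s : ℝ) : Set (Fin n → ℝ) := {u | StrictAnti u ∧ ∀ m, 0 < u m ∧ u m < s}

/-- A permutation followed by a translation. -/
def act (g : Equiv.Perm (Fin n) × (Fin n → ℝ)) (u : Fin n → ℝ) : Fin n → ℝ :=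
  fun i => u (g.1 i) + g.2 i

/-- The composition of two charts. -/
def chartComp (g g' : Equiv.Perm (Fin n) × (Fin n → ℝ)) : Equiv.Perm (Fin n) × (Fin n → ℝ) :=
  (g.1.trans g'.1, fun i => g'.2 (g.1 i) + g.2 i)

theorem act_chartComp (g g' : Equiv.Perm (Fin n) × (Fin n → ℝ)) :
    act (chartComp g g') = act g ∘ act g' := by
  funext u i
  simp only [act, chartComp, Function.comp, Equiv.trans_apply]
  ring

theorem act_injective (g : Equiv.Perm (Fin n) × (Fin n → ℝ)) : Function.Injective (act g) := by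
  intro u v h
  funext m
  have := congrFun h (g.1.symm m)
  simpa [act] using this

theorem cell_mono {s t : ℝ} (h : s ≤ t) : cell n s ⊆ cell n t :=
  fun _ hu => ⟨hu.1, fun m => ⟨(hu.2 m).1, lt_of_lt_of_le (hu.2 m).2 h⟩⟩

/-- Every chart is induced by an integer unimodular affine map. -/
theorem exists_chart_map (g : Equiv.Perm (Fin n) × (Fin n → ℝ)) :
    ∃ (A B : Matrix (Fin n) (Fin n) ℤ) (b : Fin n → ℝ), A * B = 1 ∧ ∀ x : Fin n → ℝ,
      suffix ((A.map (Int.cast : ℤ → ℝ)) *ᵥ x + b) = act g (suffix x) := by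
  obtain ⟨σ, c⟩ := g
  set C := suffixMat n
  have hC : IsUnit C.det := by rw [det_suffixMat]; exact isUnit_one
  set P : Matrix (Fin n) (Fin n) ℤ := Matrix.of fun i m => if σ i = m then 1 else 0 with hP
  have hPP : P * Pᵀ = 1 := by
    ext i j
    simp [hP, Matrix.mul_apply, Matrix.one_apply, eq_comm]
  set Cr : Matrix (Fin n) (Fin n) ℝ := C.map (Int.cast : ℤ → ℝ) with hCr
  have hsuf : ∀ x : Fin n → ℝ, suffix x = Cr *ᵥ x := by
    intro x
    funext i
    simp [suffix, hCr, C, suffixMat, Matrix.mulVec, dotProduct, Finset.sum_ite,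
      Finset.filter_le_eq_Ici, apply_ite (Int.cast : ℤ → ℝ), ite_mul]
  refine ⟨C⁻¹ * P * C, C⁻¹ * Pᵀ * C, ((C⁻¹).map (Int.cast : ℤ → ℝ)) *ᵥ c, ?_, fun x => ?_⟩
  · calc C⁻¹ * P * C * (C⁻¹ * Pᵀ * C) = C⁻¹ * P * (C * C⁻¹) * Pᵀ * C := by
          simp only [Matrix.mul_assoc]
      _ = C⁻¹ * (P * Pᵀ) * C := by rw [mul_nonsing_inv _ hC]; simp [Matrix.mul_assoc]
      _ = 1 := by rw [hPP, Matrix.mul_one, nonsing_inv_mul _ hC]
  · have hm : ∀ M N : Matrix (Fin n) (Fin n) ℤ, (M * N).map (Int.cast : ℤ → ℝ)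
        = M.map (Int.cast : ℤ → ℝ) * N.map (Int.cast : ℤ → ℝ) := fun M N =>
      map_mul (Int.castRingHom ℝ).mapMatrix M N
    have hCC : Cr * (C⁻¹).map (Int.cast : ℤ → ℝ) = 1 := by
      rw [← hm, mul_nonsing_inv _ hC]
      exact map_one (Int.castRingHom ℝ).mapMatrix
    rw [hsuf, hsuf, mulVec_add, mulVec_mulVec, mulVec_mulVec, hm, hm, ← hCr,
      ← Matrix.mul_assoc, ← Matrix.mul_assoc, hCC, Matrix.one_mul, one_mulVec,
      ← mulVec_mulVec]
    funext i
    have hPx : (P.map (Int.cast : ℤ → ℝ) *ᵥ (Cr *ᵥ x)) i = (Cr *ᵥ x) (σ i) := by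
      simp only [hP, Matrix.mulVec, dotProduct]
      simp [apply_ite (Int.cast : ℤ → ℝ), ite_mul]
    rw [Pi.add_apply, hPx]
    rfl

/-- Balls packed by disjoint charts inside the simplex. -/
theorem packing_of_charts (hn : 0 < n) {k : ℕ} {R : ℝ} {r s : Fin k → ℝ}
    (g : Fin k → Equiv.Perm (Fin n) × (Fin n → ℝ)) (hrs : ∀ i, r i < s i)
    (hsub : ∀ i, ∀ u ∈ cell n (s i), act (g i) u ∈ cell n R)
    (hdis : ∀ i j, i ≠ j → ∀ u ∈ cell n (s i), ∀ v ∈ cell n (s j), act (g i) u ≠ act (g j) v) :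
    ∃ φ : Fin k → (Fin n → ℂ) → (Fin n → ℂ), (∀ i, IsSympEmbedding n (r i) (φ i)) ∧
      (∀ i, φ i '' closedCapBall n (r i) ⊆ openCapBall n R) ∧
      ∀ i j, i ≠ j → Disjoint (φ i '' closedCapBall n (r i)) (φ j '' closedCapBall n (r j)) := by
  have h : ∀ i, ∃ φ : (Fin n → ℂ) → (Fin n → ℂ), IsSympEmbedding n (r i) φ ∧
      ∀ z ∈ closedCapBall n (r i), ∃ u ∈ cell n (s i),
        suffix (fun j => π * ‖φ z j‖ ^ 2) = act (g i) u := by
    intro i
    obtain ⟨A, B, b, hAB, hAb⟩ := exists_chart_map (g i)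
    have hmem : ∀ x ∈ simplexSet n (s i), suffix x ∈ cell n (s i) := fun x hx =>
      ⟨suffix_strictAnti hx.1, suffix_bounds hx⟩
    obtain ⟨φ, hφ, him⟩ := exists_toric_embedding (hrs i) A B hAB b fun x hx =>
      pos_of_suffix (fun m => by rw [hAb]; exact ((hsub i _ (hmem x hx)).2 m).1)
        (by rw [hAb]; exact (hsub i _ (hmem x hx)).1)
    refine ⟨φ, hφ, fun z hz => ?_⟩
    obtain ⟨x, hx, hxj⟩ := him z hz
    exact ⟨suffix x, hmem x hx, by rw [← hAb]; exact congrArg suffix (funext hxj)⟩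
  choose φ hφ him using h
  refine ⟨φ, hφ, fun i => ?_, fun i j hij => ?_⟩
  · rintro _ ⟨z, hz, rfl⟩
    obtain ⟨u, hu, e⟩ := him i z hz
    have e0 := congrFun e ⟨0, hn⟩
    rw [suffix_zero_eq_sum _ rfl, ← Finset.mul_sum] at e0
    show _ < R
    rw [e0]
    exact ((hsub i u hu).2 _).2
  · rw [Set.disjoint_left]
    rintro w ⟨z, hz, rfl⟩ ⟨z', hz', hw⟩
    obtain ⟨u, hu, e⟩ := him i z hz
    obtain ⟨v, hv, e'⟩ := him j z' hz'
    rw [hw] at e'
    exact hdis i j hij u hu v hv (e.symm.trans e')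

/-- The chart of the piece of `T`. -/
noncomputable def pieceChart (S h : ℝ) (T : Finset (Fin n)) :
    Equiv.Perm (Fin n) × (Fin n → ℝ) :=
  (Tuple.sort (key T),
    fun i => (if Tuple.sort (key T) i ∈ T then S else 0) + (if (i : ℕ) = 0 then h else 0))

theorem act_pieceChart (S h : ℝ) (T : Finset (Fin n)) (u : Fin n → ℝ) :
    act (pieceChart S h T) u = pieceY S h T u := by
  funext i
  simp only [act, pieceChart, pieceY, raw]
  split_ifs <;> ring

theorem pieceChart_mem {S h s R : ℝ} (hS : 0 < S) (hh : 0 ≤ h) (hs : s ≤ S) (hR : 2 * S + h ≤ R)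
    (T : Finset (Fin n)) {u : Fin n → ℝ} (hu : u ∈ cell n s) :
    act (pieceChart S h T) u ∈ cell n R := by
  have hu' := cell_mono hs hu
  obtain ⟨h1, h2⟩ := pieceY_props hS hh T hu'.1 hu'.2
  rw [act_pieceChart]
  exact ⟨h1, fun m => ⟨(h2 m).1, lt_of_lt_of_le (h2 m).2.1 hR⟩⟩

theorem pieceChart_ne {S h : ℝ} {T T' : Finset (Fin n)} (hT : T ≠ T') {u v : Fin n → ℝ}
    (hu : u ∈ cell n S) (hv : v ∈ cell n S) :
    act (pieceChart S h T) u ≠ act (pieceChart S h T') v := by
  rw [act_pieceChart, act_pieceChart]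
  exact fun e => hT (pieceY_inj hu.1 hv.1 hu.2 hv.2 e)

/-- Disjoint charts for at most `2^n` large balls. -/
theorem exists_big_charts (hn : 0 < n) {ι : Type*} [Fintype ι] [DecidableEq ι]
    (hι : Fintype.card ι ≤ 2 ^ n) {R : ℝ} {r : ι → ℝ} (hR : 0 < R) (hr : ∀ i, 0 < r i)
    (hlt : ∀ i, r i < R) (hpair : ∀ i j, i ≠ j → r i + r j < R) :
    ∃ (g : ι → Equiv.Perm (Fin n) × (Fin n → ℝ)) (s : ι → ℝ), (∀ i, r i < s i) ∧
      (∀ i, ∀ u ∈ cell n (s i), act (g i) u ∈ cell n R) ∧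
      ∀ i j, i ≠ j → ∀ u ∈ cell n (s i), ∀ v ∈ cell n (s j), act (g i) u ≠ act (g j) v := by
  classical
  obtain ⟨f⟩ : Nonempty (ι ↪ Finset (Fin n)) :=
    Function.Embedding.nonempty_of_card_le (by simpa using hι)
  by_cases hbig : ∃ i0, R / 2 ≤ r i0
  · obtain ⟨i0, hi0⟩ := hbig
    obtain ⟨R1, hR1, hR1R, hoth⟩ : ∃ R1, r i0 < R1 ∧ R1 < R ∧ ∀ j, j ≠ i0 → r j < R - R1 := by
      rcases (Finset.univ.erase i0).eq_empty_or_nonempty with he | hne
      · refine ⟨(r i0 + R) / 2, by linarith [hlt i0], by linarith [hlt i0], fun j hj => ?_⟩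
        exact absurd (Finset.mem_erase.2 ⟨hj, Finset.mem_univ j⟩) (by simp [he])
      · obtain ⟨j0, hj0, hmax⟩ := Finset.exists_max_image _ r hne
        have := hpair i0 j0 (Finset.ne_of_mem_erase hj0).symm
        refine ⟨(r i0 + (R - r j0)) / 2, by linarith, by linarith [hr j0], fun j hj => ?_⟩
        linarith [hmax j (Finset.mem_erase.2 ⟨hj, Finset.mem_univ j⟩)]
    set g : ι ↪ Finset (Fin n) := f.trans (Equiv.swap (f i0) ∅).toEmbedding
    have hg : ∀ j, j ≠ i0 → (g j).Nonempty := fun j hj => by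
      rw [Finset.nonempty_iff_ne_empty]
      have : g i0 = ∅ := by simp [g]
      exact this ▸ g.injective.ne hj
    set S := R - R1 with hSdef
    have hS : 0 < S := by linarith
    have hh : 0 ≤ R - 2 * S := by linarith
    have hone : ∀ j, j ≠ i0 → ∀ u ∈ cell n R1, ∀ v ∈ cell n S,
        u ≠ act (pieceChart S (R - 2 * S) (g j)) v := by
      intro j hj u hu v hv e
      rw [act_pieceChart] at e
      have h1 := ((pieceY_props hS hh (g j) hv.1 hv.2).2 ⟨0, hn⟩).2.2 rfl (hg j hj)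
      rw [← e] at h1
      linarith [(hu.2 ⟨0, hn⟩).2]
    have hid : ∀ u : Fin n → ℝ, act ((1 : Equiv.Perm (Fin n)), (0 : Fin n → ℝ)) u = u := fun u =>
      funext fun i => by simp [act]
    refine ⟨fun j => if j = i0 then ((1 : Equiv.Perm (Fin n)), (0 : Fin n → ℝ))
      else pieceChart S (R - 2 * S) (g j), fun j => if j = i0 then R1 else S, fun j => ?_,
      fun j => ?_, fun i j hij => ?_⟩
    · dsimp only
      split_ifs with hj
      · rw [hj]; exact hR1
      · exact hoth j hj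
    · dsimp only
      split_ifs with hj
      · intro u hu
        rw [hid]
        exact cell_mono hR1R.le hu
      · exact fun u hu => pieceChart_mem hS hh le_rfl (by linarith) _ hu
    · dsimp only
      split_ifs with hi hj hj
      · exact absurd (hi.trans hj.symm) hij
      · intro u hu v hv
        rw [hid]
        exact hone j hj u hu v hv
      · intro u hu v hv
        rw [hid]
        exact (hone i hi v hv u hu).symm
      · exact fun u hu v hv => pieceChart_ne (g.injective.ne hij) hu hv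
  · push Not at hbig
    exact ⟨fun j => pieceChart (R / 2) 0 (f j), fun _ => R / 2, hbig,
      fun j u hu => pieceChart_mem (by linarith) le_rfl le_rfl (by linarith) _ hu,
      fun i j hij u hu v hv => pieceChart_ne (f.injective.ne hij) hu hv⟩

/-- Strictly decreasing vectors with the same values up to order are equal. -/
theorem eq_of_perm {u v : Fin n → ℝ} (hu : StrictAnti u) (hv : StrictAnti v)
    (σ τ : Equiv.Perm (Fin n)) (h : ∀ i, u (σ i) = v (τ i)) : σ = τ := by
  have hfun : u = v ∘ (σ.symm.trans τ) := funext fun m => by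
    simpa using h (σ.symm m)
  have hneg : Set.range (fun m => -u m) = Set.range fun m => -v m := by
    rw [hfun]
    exact (σ.symm.trans τ).surjective.range_comp fun m => -v m
  have huv := Set.range_injOn_strictMono (β := Fin n) (γ := ℝ)
    (show StrictMono fun m => -u m from hu.neg) (show StrictMono fun m => -v m from hv.neg) hneg
  ext i
  have e1 : -u (σ i) = -v (σ i) := congrFun huv (σ i)
  have : v (σ i) = v (τ i) := by linarith [h i]
  rw [hv.injective this]

/-- The chart of a grid simplex. -/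
def gridChart (h : ℝ) {M : ℕ} (q : (Fin n → Fin M) × Equiv.Perm (Fin n)) :
    Equiv.Perm (Fin n) × (Fin n → ℝ) :=
  (q.2, fun i => (q.1 i : ℕ) * h)

/-- The grid simplices inside the simplex. -/
def grid (n M : ℕ) : Finset ((Fin n → Fin M) × Equiv.Perm (Fin n)) :=
  Finset.univ.filter fun q => ∀ i j, i < j → q.1 j < q.1 i

theorem gridChart_mem {h : ℝ} {M : ℕ} {q : (Fin n → Fin M) × Equiv.Perm (Fin n)}
    (hq : q ∈ grid n M) {u : Fin n → ℝ} (hu : u ∈ cell n h) :
    act (gridChart h q) u ∈ cell n (M * h) := by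
  simp only [grid, Finset.mem_filter, Finset.mem_univ, true_and] at hq
  refine ⟨fun i j hij => ?_, fun m => ?_⟩
  · have hh : 0 < h := lt_trans (hu.2 i).1 (hu.2 i).2
    have h1 : ((q.1 j : ℕ) : ℝ) + 1 ≤ ((q.1 i : ℕ) : ℝ) := by exact_mod_cast hq i j hij
    have := mul_le_mul_of_nonneg_right h1 hh.le
    simp only [act, gridChart]
    linarith [(hu.2 (q.2 i)).1, (hu.2 (q.2 j)).2]
  · have hh : 0 < h := lt_trans (hu.2 m).1 (hu.2 m).2
    have h1 : ((q.1 m : ℕ) : ℝ) + 1 ≤ (M : ℝ) := by exact_mod_cast (q.1 m).isLt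
    have := mul_le_mul_of_nonneg_right h1 hh.le
    have := mul_nonneg (Nat.cast_nonneg (α := ℝ) (q.1 m : ℕ)) hh.le
    simp only [act, gridChart]
    constructor <;> linarith [(hu.2 (q.2 m)).1, (hu.2 (q.2 m)).2]

theorem gridChart_inj {h : ℝ} {M : ℕ} {q q' : (Fin n → Fin M) × Equiv.Perm (Fin n)}
    {u v : Fin n → ℝ} (hu : u ∈ cell n h) (hv : v ∈ cell n h)
    (e : act (gridChart h q) u = act (gridChart h q') v) : q = q' := by
  have h1 : q.1 = q'.1 := funext fun i => by
    have hh : 0 < h := lt_trans (hu.2 i).1 (hu.2 i).2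
    have := congrFun e i
    simp only [act, gridChart] at this
    have a := hu.2 (q.2 i)
    have b := hv.2 (q'.2 i)
    rcases lt_trichotomy (q.1 i : ℕ) (q'.1 i : ℕ) with hlt | heq | hgt
    · have h2 : ((q.1 i : ℕ) : ℝ) + 1 ≤ (q'.1 i : ℕ) := by exact_mod_cast hlt
      have := mul_le_mul_of_nonneg_right h2 hh.le
      linarith
    · exact Fin.ext heq
    · have h2 : ((q'.1 i : ℕ) : ℝ) + 1 ≤ (q.1 i : ℕ) := by exact_mod_cast hgt
      have := mul_le_mul_of_nonneg_right h2 hh.le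
      linarith
  refine Prod.ext h1 (eq_of_perm hu.1 hv.1 _ _ fun i => ?_)
  have := congrFun e i
  simp only [act, gridChart, h1] at this
  linarith

theorem grid_card_ge (n M : ℕ) : M.descFactorial n ≤ (grid n M).card := by
  classical
  have h : Fintype.card (Fin n ↪ Fin M) ≤ (grid n M).card := by
    rw [← Fintype.card_coe (grid n M)]
    refine Fintype.card_le_of_surjective (fun q : (grid n M : Type) =>
      (⟨fun i => q.1.1 (q.1.2 i), ?_⟩ : Fin n ↪ Fin M)) ?_
    · have hq := (Finset.mem_filter.1 q.2).2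
      intro a b hab
      refine q.1.2.injective ?_
      rcases lt_trichotomy (q.1.2 a) (q.1.2 b) with hl | he | hg
      · exact absurd hab (hq _ _ hl).ne'
      · exact he
      · exact absurd hab (hq _ _ hg).ne
    · intro f
      set σ := Tuple.sort (fun i => OrderDual.toDual (f i))
      have hs : StrictMono ((fun i => OrderDual.toDual (f i)) ∘ σ) :=
        (Tuple.monotone_sort _).strictMono_of_injective (fun a b hab => σ.injective
          (f.injective hab))
      refine ⟨⟨(fun i => f (σ i), σ.symm), Finset.mem_filter.2 ⟨Finset.mem_univ _,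
        fun i j hij => hs hij⟩⟩, ?_⟩
      ext i
      simp
  simpa [Fintype.card_embedding_eq] using h

/-- The grid simplices meeting a chart are few. -/
theorem blocked_card_le {M : ℕ} {h s : ℝ} (hh : 0 < h)
    (g : Equiv.Perm (Fin n) × (Fin n → ℝ))
    (F : Finset ((Fin n → Fin M) × Equiv.Perm (Fin n)))
    (hF : ∀ q ∈ F, ∃ u ∈ cell n h, ∃ v ∈ cell n s, act (gridChart h q) u = act g v) :
    F.card ≤ (⌈s / h⌉₊ + 2 * n + 1) ^ n := by
  classical
  set N := ⌈s / h⌉₊ + 2 * n + 1 with hN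
  let K : Fin n → ℤ := fun i => ⌊g.2 i / h⌋
  let z : ((Fin n → Fin M) × Equiv.Perm (Fin n)) → Fin n → ℤ := fun q m =>
    ((q.1 (g.1.symm m) : ℕ) : ℤ) - K (g.1.symm m) + 2 * ((n : ℤ) - m)
  have key : ∀ q ∈ F, (∀ m, 0 ≤ z q m ∧ z q m < N) ∧ ∀ a b, a < b → z q b < z q a := by
    intro q hq
    obtain ⟨u, hu, v, hv, e⟩ := hF q hq
    have hw : ∀ m, v m / h - 1 < (((q.1 (g.1.symm m) : ℕ) : ℤ) - K (g.1.symm m) : ℤ) ∧
        ((((q.1 (g.1.symm m) : ℕ) : ℤ) - K (g.1.symm m) : ℤ) : ℝ) < v m / h + 1 := by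
      intro m
      have h1 := congrFun e (g.1.symm m)
      simp only [act, gridChart, Equiv.apply_symm_apply] at h1
      have h2 := Int.floor_le (g.2 (g.1.symm m) / h)
      have h3 := Int.lt_floor_add_one (g.2 (g.1.symm m) / h)
      have a := hu.2 (q.2 (g.1.symm m))
      have hq0 : v m / h = u (q.2 (g.1.symm m)) / h + (q.1 (g.1.symm m) : ℕ)
          - g.2 (g.1.symm m) / h := by
        field_simp
        linarith
      have a0 : 0 < u (q.2 (g.1.symm m)) / h := div_pos a.1 hh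
      have a1 : u (q.2 (g.1.symm m)) / h < 1 := (div_lt_one hh).2 a.2
      push_cast
      constructor <;> linarith
    refine ⟨fun m => ?_, fun a b hab => ?_⟩
    · obtain ⟨h1, h2⟩ := hw m
      have h3 : 0 < v m / h := div_pos (hv.2 m).1 hh
      have h4 : v m / h < ⌈s / h⌉₊ :=
        lt_of_lt_of_le (div_lt_div_of_pos_right (hv.2 m).2 hh) (Nat.le_ceil _)
      have h5 : (-1 : ℤ) < ((q.1 (g.1.symm m) : ℕ) : ℤ) - K (g.1.symm m) := by
        exact_mod_cast (show (-1 : ℝ) < (((q.1 (g.1.symm m) : ℕ) : ℤ) - K (g.1.symm m) : ℤ) by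
          linarith)
      have h6 : ((q.1 (g.1.symm m) : ℕ) : ℤ) - K (g.1.symm m) < (⌈s / h⌉₊ : ℤ) + 1 := by
        exact_mod_cast (show (((((q.1 (g.1.symm m) : ℕ) : ℤ) - K (g.1.symm m)) : ℤ) : ℝ)
          < ((⌈s / h⌉₊ : ℤ) + 1 : ℤ) by push_cast at h2 ⊢; linarith)
      have := m.isLt
      simp only [z, hN]
      push_cast
      omega
    · have h1 := (hw b).2
      have h2 := (hw a).1
      have h3 : v b / h < v a / h := div_lt_div_of_pos_right (hv.1 hab) hh
      have h4 : ((q.1 (g.1.symm b) : ℕ) : ℤ) - K (g.1.symm b)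
          < ((q.1 (g.1.symm a) : ℕ) : ℤ) - K (g.1.symm a) + 2 := by
        exact_mod_cast (show (((((q.1 (g.1.symm b) : ℕ) : ℤ) - K (g.1.symm b)) : ℤ) : ℝ)
          < (((((q.1 (g.1.symm a) : ℕ) : ℤ) - K (g.1.symm a)) + 2 : ℤ) : ℝ) by
            push_cast at h1 h2 ⊢; linarith)
      have := Fin.lt_def.1 hab
      simp only [z]
      omega
  have hinj : ∀ q ∈ F, ∀ q' ∈ F, (fun m => z q (q.2 m)) = (fun m => z q' (q'.2 m)) → q = q' := by
    intro q hq q' hq' he
    have hu : StrictAnti fun m => (z q m : ℝ) := fun a b hab => by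
      simpa using (key q hq).2 a b hab
    have hv : StrictAnti fun m => (z q' m : ℝ) := fun a b hab => by
      simpa using (key q' hq').2 a b hab
    have hp := eq_of_perm hu hv q.2 q'.2 fun i => by simpa using congrFun he i
    refine Prod.ext (funext fun i => ?_) hp
    have := congrFun he (q.2.symm (g.1 i))
    simp only [← hp, Equiv.apply_symm_apply, z, Equiv.symm_apply_apply] at this
    exact Fin.ext (by omega)
  calc F.card ≤ (Fintype.piFinset fun _ : Fin n => Finset.Ico (0 : ℤ) N).card := by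
        refine Finset.card_le_card_of_injOn (fun q m => z q (q.2 m)) (fun q hq => ?_)
          (fun q hq q' hq' => hinj q hq q' hq')
        rw [Finset.mem_coe, Fintype.mem_piFinset]
        exact fun m => Finset.mem_Ico.2 ((key q hq).1 _)
    _ = N ^ n := by simp

/-- Dyadic subdivision of disjoint simplices of size `t`. -/
theorem dyadic_charts {ι : Type*} [DecidableEq ι] (L : ℕ) : ∀ (I : Finset ι) (l : ι → ℕ),
    (∀ i ∈ I, l i ≤ L) → ∀ (κ : Type) (C : Finset κ)
    (g : κ → Equiv.Perm (Fin n) × (Fin n → ℝ)) (t : ℝ), 0 < t →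
    (∀ a ∈ C, ∀ b ∈ C, a ≠ b → ∀ u ∈ cell n t, ∀ v ∈ cell n t, act (g a) u ≠ act (g b) v) →
    ∑ i ∈ I, 2 ^ (n * (L - l i)) ≤ C.card * 2 ^ (n * L) →
    ∃ G : ι → Equiv.Perm (Fin n) × (Fin n → ℝ),
      (∀ i ∈ I, ∃ a ∈ C, ∀ u ∈ cell n (t / 2 ^ l i), ∃ v ∈ cell n t,
        act (G i) u = act (g a) v) ∧
      ∀ i ∈ I, ∀ j ∈ I, i ≠ j → ∀ u ∈ cell n (t / 2 ^ l i), ∀ v ∈ cell n (t / 2 ^ l j),
        act (G i) u ≠ act (G j) v := by
  classical
  induction L with
  | zero =>
    intro I l hl κ C g t ht hC hcount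
    simp at hcount
    obtain ⟨f⟩ : Nonempty (I ↪ C) := Function.Embedding.nonempty_of_card_le (by simpa using hcount)
    rcases I.eq_empty_or_nonempty with rfl | ⟨i0, hi0⟩
    · exact ⟨fun _ => ((1 : Equiv.Perm (Fin n)), 0), by simp, by simp⟩
    refine ⟨fun i => if hi : i ∈ I then g (f ⟨i, hi⟩).1 else g (f ⟨i0, hi0⟩).1, fun i hi => ?_,
      fun i hi j hj hij => ?_⟩
    · refine ⟨_, (f ⟨i, hi⟩).2, fun u hu => ⟨u, ?_, by simp [hi]⟩⟩
      simpa [Nat.le_zero.1 (hl i hi)] using hu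
    · intro u hu v hv
      simp only [dif_pos hi, dif_pos hj]
      refine hC _ (f ⟨i, hi⟩).2 _ (f ⟨j, hj⟩).2 ?_ u ?_ v ?_
      · intro e
        exact hij (congrArg Subtype.val (f.injective (Subtype.ext e)))
      · simpa [Nat.le_zero.1 (hl i hi)] using hu
      · simpa [Nat.le_zero.1 (hl j hj)] using hv
  | succ L ih =>
    intro I l hl κ C g t ht hC hcount
    set I0 := I.filter fun i => l i = 0
    set I1 := I.filter fun i => ¬ l i = 0
    have hsplit : ∑ i ∈ I0, 2 ^ (n * (L + 1 - l i)) + ∑ i ∈ I1, 2 ^ (n * (L + 1 - l i))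
        = ∑ i ∈ I, 2 ^ (n * (L + 1 - l i)) :=
      Finset.sum_filter_add_sum_filter_not I (fun i => l i = 0) _
    have h0 : ∑ i ∈ I0, 2 ^ (n * (L + 1 - l i)) = I0.card * 2 ^ (n * (L + 1)) := by
      rw [Finset.sum_congr rfl (fun i hi => by rw [(Finset.mem_filter.1 hi).2, Nat.sub_zero]),
        Finset.sum_const, smul_eq_mul]
    have hle : I0.card ≤ C.card := by
      refine Nat.le_of_mul_le_mul_right ?_ (pow_pos two_pos (n * (L + 1)))
      omega
    obtain ⟨C0, hC0, hC0card⟩ := Finset.exists_subset_card_eq hle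
    have e0 : I0 ≃ C0 := Finset.equivOfCardEq hC0card.symm
    set C1 := (C \ C0) ×ˢ (Finset.univ : Finset (Finset (Fin n))) with hC1
    let g1 : κ × Finset (Fin n) → Equiv.Perm (Fin n) × (Fin n → ℝ) := fun a =>
      chartComp (g a.1) (pieceChart (t / 2) 0 a.2)
    have hsub : ∀ T : Finset (Fin n), ∀ u ∈ cell n (t / 2),
        act (pieceChart (t / 2) 0 T) u ∈ cell n t :=
      fun T u hu => pieceChart_mem (by linarith) le_rfl le_rfl (by linarith) T hu
    have hC1' : ∀ a ∈ C1, ∀ b ∈ C1, a ≠ b → ∀ u ∈ cell n (t / 2), ∀ v ∈ cell n (t / 2),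
        act (g1 a) u ≠ act (g1 b) v := by
      intro a ha b hb hab u hu v hv e
      simp only [g1, act_chartComp, Function.comp] at e
      have hab' : a.1 = b.1 := by
        by_contra hne
        exact hC _ (Finset.mem_sdiff.1 (Finset.mem_product.1 ha).1).1 _
          (Finset.mem_sdiff.1 (Finset.mem_product.1 hb).1).1 hne _ (hsub _ u hu) _ (hsub _ v hv) e
      rw [hab'] at e
      exact pieceChart_ne (fun h => hab (Prod.ext hab' h)) hu hv (act_injective _ e)
    have hcount1 : ∑ i ∈ I1, 2 ^ (n * (L - (l i - 1))) ≤ C1.card * 2 ^ (n * L) := by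
      have e1 : ∑ i ∈ I1, 2 ^ (n * (L + 1 - l i)) = ∑ i ∈ I1, 2 ^ (n * (L - (l i - 1))) :=
        Finset.sum_congr rfl fun i hi => by
          have := (Finset.mem_filter.1 hi).2
          congr 2
          omega
      have e2 : C1.card * 2 ^ (n * L) = (C.card - I0.card) * 2 ^ (n * (L + 1)) := by
        rw [hC1, Finset.card_product, Finset.card_sdiff_of_subset hC0, hC0card, Finset.card_univ,
          Fintype.card_finset, Fintype.card_fin, Nat.mul_succ, pow_add]
        ring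
      rw [← e1, e2, Nat.sub_mul]
      omega
    obtain ⟨G1, hG1, hG1'⟩ := ih I1 (fun i => l i - 1) (fun i hi => by
      have := hl i (Finset.mem_filter.1 hi).1
      omega) (κ × Finset (Fin n)) C1 g1 (t / 2) (by linarith) hC1' hcount1
    have hsize : ∀ i ∈ I1, t / 2 ^ l i = t / 2 / 2 ^ (l i - 1) := by
      intro i hi
      have := (Finset.mem_filter.1 hi).2
      rw [div_div, ← pow_succ']
      congr 2
      omega
    have hG1in : ∀ i ∈ I1, ∃ a ∈ C \ C0, ∀ u ∈ cell n (t / 2 ^ l i), ∃ v ∈ cell n t,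
        act (G1 i) u = act (g a) v := by
      intro i hi
      obtain ⟨a, ha, hau⟩ := hG1 i hi
      refine ⟨a.1, (Finset.mem_product.1 ha).1, fun u hu => ?_⟩
      obtain ⟨v, hv, e⟩ := hau u (hsize i hi ▸ hu)
      exact ⟨_, hsub a.2 v hv, by rw [e]; simp only [g1, act_chartComp, Function.comp]⟩
    refine ⟨fun i => if hi : i ∈ I0 then g (e0 ⟨i, hi⟩).1 else G1 i, fun i hi => ?_, ?_⟩
    · by_cases h : l i = 0
      · have hi0 : i ∈ I0 := Finset.mem_filter.2 ⟨hi, h⟩
        exact ⟨_, hC0 (e0 ⟨i, hi0⟩).2, fun u hu => ⟨u, by simpa [h] using hu, by simp [hi0]⟩⟩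
      · obtain ⟨a, ha, hau⟩ := hG1in i (Finset.mem_filter.2 ⟨hi, h⟩)
        refine ⟨a, (Finset.mem_sdiff.1 ha).1, fun u hu => ?_⟩
        simpa [I0, h] using hau u hu
    · intro i hi j hj hij u hu v hv e
      by_cases h : l i = 0 <;> by_cases h' : l j = 0
      · have hi0 : i ∈ I0 := Finset.mem_filter.2 ⟨hi, h⟩
        have hj0 : j ∈ I0 := Finset.mem_filter.2 ⟨hj, h'⟩
        simp only [dif_pos hi0, dif_pos hj0] at e
        refine hC _ (hC0 (e0 ⟨i, hi0⟩).2) _ (hC0 (e0 ⟨j, hj0⟩).2) ?_ u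
          (by simpa [h] using hu) v (by simpa [h'] using hv) e
        intro hc
        exact hij (congrArg Subtype.val (e0.injective (Subtype.ext hc)))
      · have hi0 : i ∈ I0 := Finset.mem_filter.2 ⟨hi, h⟩
        have hj0 : j ∉ I0 := by simp [I0, h']
        simp only [dif_pos hi0, dif_neg hj0] at e
        obtain ⟨a, ha, hau⟩ := hG1in j (Finset.mem_filter.2 ⟨hj, h'⟩)
        obtain ⟨w, hw, e'⟩ := hau v hv
        refine hC _ (hC0 (e0 ⟨i, hi0⟩).2) _ (Finset.mem_sdiff.1 ha).1 ?_ u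
          (by simpa [h] using hu) w hw (e.trans e')
        intro hc
        exact (Finset.mem_sdiff.1 ha).2 (hc ▸ (e0 ⟨i, hi0⟩).2)
      · have hj0 : j ∈ I0 := Finset.mem_filter.2 ⟨hj, h'⟩
        have hi0 : i ∉ I0 := by simp [I0, h]
        simp only [dif_pos hj0, dif_neg hi0] at e
        obtain ⟨a, ha, hau⟩ := hG1in i (Finset.mem_filter.2 ⟨hi, h⟩)
        obtain ⟨w, hw, e'⟩ := hau u hu
        refine hC _ (Finset.mem_sdiff.1 ha).1 _ (hC0 (e0 ⟨j, hj0⟩).2) ?_ w hw v
          (by simpa [h'] using hv) (e'.symm.trans e)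
        intro hc
        exact (Finset.mem_sdiff.1 ha).2 (hc.symm ▸ (e0 ⟨j, hj0⟩).2)
      · have hi0 : i ∉ I0 := by simp [I0, h]
        have hj0 : j ∉ I0 := by simp [I0, h']
        simp only [dif_neg hi0, dif_neg hj0] at e
        have hi1 : i ∈ I1 := Finset.mem_filter.2 ⟨hi, h⟩
        have hj1 : j ∈ I1 := Finset.mem_filter.2 ⟨hj, h'⟩
        exact hG1' i hi1 j hj1 hij u (hsize i hi1 ▸ hu) v (hsize j hj1 ▸ hv) e

end P209
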