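import Mathlib
import Vale.Agent.P209.Chart

/-!
P209: at most `2^n` large balls and any number of small ones fill the ball up to any margin.
-/

namespace P209

open Real Set

theorem exists_scale {P : ℕ} {x : ℝ} (hP : 0 < P) (hx : 2 * (P : ℝ) ≤ x) :
    ∃ a l : ℕ, P ≤ a ∧ a < 2 * P ∧ (a : ℝ) * 2 ^ l < x ∧ x ≤ ((a : ℝ) + 1) * 2 ^ l := by
  classical
  have hP0 : (0 : ℝ) < P := by exact_mod_cast hP
  have hex : ∃ l : ℕ, x ≤ 2 * P * 2 ^ l := by
    obtain ⟨l, hl⟩ := pow_unbounded_of_one_lt (x / (2 * P)) (one_lt_two (α := ℝ))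
    refine ⟨l, ?_⟩
    rw [div_lt_iff₀ (by positivity)] at hl
    linarith
  set l := Nat.find hex
  have h1 : x ≤ 2 * P * 2 ^ l := Nat.find_spec hex
  have h2 : (P : ℝ) * 2 ^ l < x := by
    rcases Nat.eq_zero_or_pos l with h | h
    · rw [h, pow_zero, mul_one]; linarith
    · have h3 := not_le.1 (Nat.find_min hex (show l - 1 < l by omega))
      have : (2 : ℝ) ^ l = 2 * 2 ^ (l - 1) := by rw [← pow_succ']; congr 1; omega
      rw [this]; linarith
  have hl0 : (0 : ℝ) < 2 ^ l := by positivity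
  set m := ⌈x / 2 ^ l⌉₊
  have h3 : x / 2 ^ l ≤ m := Nat.le_ceil _
  have hm : (m : ℝ) < x / 2 ^ l + 1 := Nat.ceil_lt_add_one (div_nonneg (by linarith) hl0.le)
  have h4 : (P : ℝ) < x / 2 ^ l := by rw [lt_div_iff₀ hl0]; exact h2
  have h5 : m ≤ 2 * P := by
    refine Nat.ceil_le.2 ?_
    rw [div_le_iff₀ hl0]
    push_cast
    exact h1
  have h6 : P < m := by exact_mod_cast lt_of_lt_of_le h4 h3
  refine ⟨m - 1, l, by omega, by omega, ?_, ?_⟩
  · rw [Nat.cast_sub (by omega), Nat.cast_one, ← lt_div_iff₀ hl0]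
    linarith
  · rw [Nat.cast_sub (by omega), Nat.cast_one, sub_add_cancel, ← div_le_iff₀ hl0]
    exact h3

theorem exists_disjoint_subsets {α β : Type*} [DecidableEq β] (S : Finset α) (F : Finset β)
    (K : α → ℕ) (h : ∑ a ∈ S, K a ≤ F.card) :
    ∃ C : α → Finset β, (∀ a ∈ S, C a ⊆ F ∧ (C a).card = K a) ∧
      ∀ a ∈ S, ∀ b ∈ S, a ≠ b → Disjoint (C a) (C b) := by
  classical
  induction S using Finset.induction_on generalizing F with
  | empty => exact ⟨fun _ => ∅, by simp, by simp⟩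
  | insert a S ha ih =>
    rw [Finset.sum_insert ha] at h
    obtain ⟨Ca, hCa, hcard⟩ := Finset.exists_subset_card_eq (show K a ≤ F.card by omega)
    obtain ⟨C, h1, h2⟩ := ih (F \ Ca) (by rw [Finset.card_sdiff_of_subset hCa, hcard]; omega)
    have hne : ∀ b ∈ S, b ≠ a := fun b hb e => ha (e ▸ hb)
    have hd : ∀ b ∈ S, Disjoint Ca (C b) := fun b hb =>
      Finset.disjoint_left.2 fun x hx hxb => (Finset.mem_sdiff.1 ((h1 b hb).1 hxb)).2 hx
    refine ⟨Function.update C a Ca, fun b hb => ?_, fun b hb c hc hbc => ?_⟩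
    · rcases Finset.mem_insert.1 hb with e | hb
      · simp [e, hCa, hcard]
      · rw [Function.update_of_ne (hne b hb)]
        exact ⟨(h1 b hb).1.trans Finset.sdiff_subset, (h1 b hb).2⟩
    · rcases Finset.mem_insert.1 hb with e | hb <;> rcases Finset.mem_insert.1 hc with e' | hc
      · exact absurd (e.trans e'.symm) hbc
      · rw [e, Function.update_self, Function.update_of_ne (hne c hc)]; exact hd c hc
      · rw [e', Function.update_self, Function.update_of_ne (hne b hb)]; exact (hd b hb).symm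
      · rw [Function.update_of_ne (hne b hb), Function.update_of_ne (hne c hc)]
        exact h2 b hb c hc hbc

theorem pow_add_sub_le {x d : ℝ} (hx : 0 ≤ x) (hx1 : x ≤ 1) (hd : 0 ≤ d) (m : ℕ) :
    (x + d) ^ m - x ^ m ≤ (1 + d) ^ m - 1 := by
  induction m with
  | zero => simp
  | succ m ih =>
    have h1 : x ^ m ≤ 1 := pow_le_one₀ hx hx1
    have h2 : 0 ≤ (x + d) ^ m - x ^ m := by
      have := pow_le_pow_left₀ hx (show x ≤ x + d by linarith) m
      linarith
    calc (x + d) ^ (m + 1) - x ^ (m + 1) = (x + d) * ((x + d) ^ m - x ^ m) + d * x ^ m := by ring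
      _ ≤ (1 + d) * ((1 + d) ^ m - 1) + d * 1 := by gcongr
      _ = (1 + d) ^ (m + 1) - 1 := by ring

theorem desc_ge {M n : ℕ} (hM : n ≤ M) : ((M : ℝ) - n) ^ n ≤ (M.descFactorial n : ℕ) := by
  have h := Nat.pow_sub_le_descFactorial M n
  have h2 : (M - n) ^ n ≤ (M + 1 - n) ^ n := Nat.pow_le_pow_left (by omega) n
  calc ((M : ℝ) - n) ^ n = (((M - n) ^ n : ℕ) : ℝ) := by rw [Nat.cast_pow, Nat.cast_sub hM]
    _ ≤ _ := by exact_mod_cast h2.trans h

/-- Any number of small balls and at most `2^n` others pack with any volume margin. -/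
theorem packing_with_margin (n : ℕ) (hn : 0 < n) (ε : ℝ) (hε : 0 < ε) :
    ∃ c : ℝ, 0 < c ∧ ∀ (k : ℕ) (R : ℝ) (r : Fin k → ℝ), 0 < R → (∀ i, 0 < r i) →
      ∑ i, r i ^ n ≤ (1 - ε) * R ^ n → (∀ i j, i ≠ j → r i + r j < R) →
      (Finset.univ.filter fun i => c * R < r i).card ≤ 2 ^ n →
      ∃ φ : Fin k → (Fin n → ℂ) → (Fin n → ℂ), (∀ i, IsSympEmbedding n (r i) (φ i)) ∧
        (∀ i, φ i '' closedCapBall n (r i) ⊆ openCapBall n R) ∧
        ∀ i j, i ≠ j →
          Disjoint (φ i '' closedCapBall n (r i)) (φ j '' closedCapBall n (r j)) := by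
  have t1 : Filter.Tendsto (fun P : ℕ => (1 / (P : ℝ))) Filter.atTop (nhds 0) :=
    tendsto_one_div_atTop_nhds_zero_nat
  have t2 := tendsto_const_div_atTop_nhds_zero_nat (n : ℝ)
  have tk : Filter.Tendsto (fun P : ℕ => ((1 + 1 / (P : ℝ)) / (1 - n / P)) ^ n * (1 - ε))
      Filter.atTop (nhds (1 - ε)) := by
    have := (((tendsto_const_nhds (x := (1 : ℝ))).add t1).div
      ((tendsto_const_nhds (x := (1 : ℝ))).sub t2) (by simp)).pow n |>.mul_const (1 - ε)
    simpa using this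
  obtain ⟨P, hPκ, hPn⟩ := ((tk.eventually_lt_const (show 1 - ε < 1 - ε / 2 by linarith)).and
    (Filter.eventually_gt_atTop n)).exists
  have t3 := tendsto_const_div_atTop_nhds_zero_nat (2 * (n : ℝ) + 4)
  have t4 : Filter.Tendsto (fun M : ℕ => (1 - (n : ℝ) / M) ^ n
      - (P : ℝ) * (1 / (M : ℝ)) ^ n - 2 ^ n * ((1 + (2 * n + 4) / M) ^ n - 1))
      Filter.atTop (nhds 1) := by
    have := ((((tendsto_const_nhds (x := (1 : ℝ))).sub t2).pow n).sub
      ((t1.pow n).const_mul (P : ℝ))).sub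
      (((((tendsto_const_nhds (x := (1 : ℝ))).add t3).pow n).sub_const 1).const_mul (2 ^ n))
    simpa [zero_pow hn.ne'] using this
  obtain ⟨M, hMη, hMn⟩ := ((t4.eventually_const_lt (show 1 - ε / 2 < 1 by linarith)).and
    (Filter.eventually_gt_atTop n)).exists
  have hP0 : (0 : ℝ) < P := by exact_mod_cast Nat.lt_of_le_of_lt (Nat.zero_le _) hPn
  have hM0 : (0 : ℝ) < M := by exact_mod_cast Nat.lt_of_le_of_lt (Nat.zero_le _) hMn
  refine ⟨1 / (2 * P * M), by positivity, fun k R r hR hr hvol hpair hbig => ?_⟩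
  classical
  set c : ℝ := 1 / (2 * P * M) with hc
  set κ : ℝ := ((1 + 1 / (P : ℝ)) / (1 - n / P)) ^ n with hκ
  set h : ℝ := R / M with hh_def
  have hh : 0 < h := by positivity
  have hRh : R = M * h := by rw [hh_def]; field_simp
  have hlt : ∀ i, r i < R := fun i => by
    refine lt_of_pow_lt_pow_left₀ n hR.le (lt_of_le_of_lt
      ((Finset.single_le_sum (f := fun i => r i ^ n) (fun j _ => pow_nonneg (hr j).le n)
        (Finset.mem_univ i)).trans hvol) ?_)
    have := pow_pos hR n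
    nlinarith
  -- the large balls
  obtain ⟨g0, s0, hs0, hsub0, hdis0⟩ := exists_big_charts hn (ι := {i : Fin k // c * R < r i})
    (by rw [Fintype.card_subtype]; exact hbig) hR (r := fun i => r i.1) (fun i => hr _)
    (fun i => hlt _) (fun i j hij => hpair _ _ fun e => hij (Subtype.ext e))
  set s : {i : Fin k // c * R < r i} → ℝ := fun i => min (s0 i) (r i.1 + h) with hs
  set F : {i : Fin k // c * R < r i} → Finset ((Fin n → Fin M) × Equiv.Perm (Fin n)) := fun i =>
    (grid n M).filter fun q => ∃ u ∈ cell n h, ∃ v ∈ cell n (s i),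
      act (gridChart h q) u = act (g0 i) v
  set free := grid n M \ Finset.univ.biUnion F with hfree
  have hFcard : ∀ i, ((F i).card : ℝ) ≤ (M : ℝ) ^ n * (r i.1 / R) ^ n
      + (M : ℝ) ^ n * ((1 + (2 * n + 4) / M) ^ n - 1) := by
    intro i
    have h1 := blocked_card_le hh (g0 i) (F i) fun q hq => (Finset.mem_filter.1 hq).2
    have h2 : ((F i).card : ℝ) ≤ (r i.1 / h + (2 * n + 4)) ^ n := by
      refine (Nat.cast_le.2 h1).trans ?_
      rw [Nat.cast_pow]
      refine pow_le_pow_left₀ (Nat.cast_nonneg _) ?_ n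
      push_cast
      have hsi : 0 ≤ s i / h := div_nonneg
        (le_min ((hr _).le.trans (hs0 i).le) (by linarith [hr i.1])) hh.le
      have h3 : (⌈s i / h⌉₊ : ℝ) < s i / h + 1 := Nat.ceil_lt_add_one hsi
      have h4 : s i / h ≤ r i.1 / h + 1 := by
        rw [div_add_one hh.ne', div_le_div_iff_of_pos_right hh]
        exact min_le_right _ _
      linarith
    have h5 : r i.1 / h + (2 * n + 4) = M * (r i.1 / R + (2 * n + 4) / M) := by
      rw [hh_def]; field_simp
    rw [h5, mul_pow] at h2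
    have h6 := pow_add_sub_le (x := r i.1 / R) (d := (2 * n + 4) / M) (div_nonneg (hr _).le hR.le)
      ((div_le_one hR).2 (hlt _).le) (by positivity) n
    have := mul_le_mul_of_nonneg_left h6 (pow_nonneg hM0.le n)
    linarith
  -- the small balls
  set small := Finset.univ.filter fun i : Fin k => ¬ c * R < r i with hsmall_def
  have hsc : ∀ i ∈ small, ∃ a l : ℕ, P ≤ a ∧ a < 2 * P ∧ (a : ℝ) * 2 ^ l < h / r i ∧
      h / r i ≤ ((a : ℝ) + 1) * 2 ^ l := fun i hi => by
    refine exists_scale (by exact_mod_cast hP0) ?_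
    have h1 := not_lt.1 (Finset.mem_filter.1 hi).2
    rw [le_div_iff₀ (hr i)]
    calc 2 * (P : ℝ) * r i ≤ 2 * P * (c * R) := mul_le_mul_of_nonneg_left h1 (by positivity)
      _ = h := by rw [hc, hh_def]; field_simp
  choose! a l ha1 ha2 hax1 hax2 using hsc
  set L := small.sup l
  set grp : ℕ → Finset (Fin k) := fun A => small.filter fun i => a i = A with hgrp
  set K : ℕ → ℕ := fun A =>
    ⌈(∑ i ∈ grp A, (1 / (2 : ℝ) ^ (n * l i))) / (A.descFactorial n : ℕ)⌉₊ with hK
  have hterm : ∀ i ∈ small, (1 / (2 : ℝ) ^ (n * l i)) / ((a i).descFactorial n : ℕ)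
      ≤ κ * (r i / h) ^ n := by
    intro i hi
    have hPa : (P : ℝ) ≤ a i := by exact_mod_cast ha1 i hi
    have ha0 : (0 : ℝ) < a i := by linarith
    have hnP : (0 : ℝ) < 1 - n / P := by
      rw [sub_pos, div_lt_one hP0]; exact_mod_cast hPn
    have hd : ((a i : ℝ) * (1 - n / P)) ^ n ≤ ((a i).descFactorial n : ℕ) := by
      refine le_trans (pow_le_pow_left₀ (by positivity) ?_ n)
        (desc_ge (show n ≤ a i by have := ha1 i hi; omega))
      have : (n : ℝ) / a i ≤ n / P := div_le_div_of_nonneg_left (Nat.cast_nonneg n) hP0 hPa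
      calc (a i : ℝ) * (1 - n / P) ≤ a i * (1 - n / a i) :=
            mul_le_mul_of_nonneg_left (by linarith) ha0.le
        _ = a i - n := by field_simp
    have hb : 1 / (2 : ℝ) ^ l i / (a i) ≤ (1 + 1 / P) * (r i / h) := by
      have h1 := hax2 i hi
      rw [div_le_iff₀ (hr i)] at h1
      have h2 : ((a i : ℝ) + 1) / a i ≤ 1 + 1 / P := by
        rw [add_div, div_self ha0.ne']
        have := div_le_div_of_nonneg_left (zero_le_one (α := ℝ)) hP0 hPa
        linarith
      have h3 := mul_le_mul_of_nonneg_right h2 (div_nonneg (hr i).le hh.le)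
      refine le_trans ?_ h3
      rw [div_div, div_mul_div_comm, div_le_div_iff₀ (by positivity) (by positivity)]
      calc 1 * ((a i : ℝ) * h) ≤ a i * (((a i : ℝ) + 1) * 2 ^ l i * r i) := by
            rw [one_mul]; exact mul_le_mul_of_nonneg_left h1 ha0.le
        _ = ((a i : ℝ) + 1) * r i * (2 ^ l i * a i) := by ring
    calc (1 / (2 : ℝ) ^ (n * l i)) / ((a i).descFactorial n : ℕ)
        ≤ (1 / (2 : ℝ) ^ (n * l i)) / ((a i : ℝ) * (1 - n / P)) ^ n :=
          div_le_div_of_nonneg_left (by positivity) (by positivity) hd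
      _ = (1 / (2 : ℝ) ^ l i / a i / (1 - n / P)) ^ n := by
          rw [mul_comm n, pow_mul, div_div _ (a i : ℝ), div_pow, div_pow, one_pow]
      _ ≤ ((1 + 1 / P) * (r i / h) / (1 - n / P)) ^ n := by gcongr
      _ = κ * (r i / h) ^ n := by rw [hκ, ← mul_pow, div_mul_eq_mul_div]
  have hKsum : ((∑ A ∈ Finset.Ico P (2 * P), K A : ℕ) : ℝ) ≤ κ * ∑ i ∈ small, (r i / h) ^ n + P := by
    rw [Nat.cast_sum, Finset.mul_sum, ← Finset.sum_fiberwise_of_maps_to (g := a)
      (t := Finset.Ico P (2 * P)) (fun i hi => Finset.mem_Ico.2 ⟨ha1 i hi, ha2 i hi⟩)]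
    calc ∑ A ∈ Finset.Ico P (2 * P), (K A : ℝ)
        ≤ ∑ A ∈ Finset.Ico P (2 * P), (∑ i ∈ grp A, κ * (r i / h) ^ n + 1) := by
          refine Finset.sum_le_sum fun A _ => ((Nat.ceil_lt_add_one (div_nonneg
            (Finset.sum_nonneg fun i _ => by positivity) (Nat.cast_nonneg _))).le.trans ?_)
          rw [Finset.sum_div]
          gcongr with i hi
          obtain ⟨hi1, hi2⟩ := Finset.mem_filter.1 hi
          rw [← hi2]
          exact hterm i hi1
      _ = _ := by
          rw [Finset.sum_add_distrib, Finset.sum_const, Nat.card_Ico, nsmul_one]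
          congr 2
          omega
  have hroom : ∑ A ∈ Finset.Ico P (2 * P), K A ≤ free.card := by
    have h1 : (grid n M).card ≤ free.card + ∑ i, (F i).card := by
      refine le_trans ?_ (Nat.add_le_add_left Finset.card_biUnion_le _)
      exact Finset.card_le_card_sdiff_add_card
    have h2 : ((M : ℝ) - n) ^ n ≤ free.card + ∑ i, ((F i).card : ℝ) :=
      (desc_ge hMn.le).trans (by exact_mod_cast (grid_card_ge n M).trans h1)
    have h3 := Finset.sum_le_sum (s := Finset.univ) fun i _ => hFcard i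
    rw [Finset.sum_add_distrib, ← Finset.mul_sum, Finset.sum_const, nsmul_eq_mul,
      Finset.card_univ] at h3
    have hcard : ((Fintype.card {i : Fin k // c * R < r i} : ℕ) : ℝ) ≤ 2 ^ n := by
      rw [Fintype.card_subtype]
      exact_mod_cast hbig
    have hd0 : 0 ≤ (1 + (2 * (n : ℝ) + 4) / M) ^ n - 1 := by
      have : (0 : ℝ) ≤ (2 * (n : ℝ) + 4) / M := by positivity
      linarith [one_le_pow₀ (show (1 : ℝ) ≤ 1 + (2 * (n : ℝ) + 4) / M by linarith) (n := n)]
    have h4 := mul_le_mul_of_nonneg_right hcard (mul_nonneg (pow_nonneg hM0.le n) hd0)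
    have h5 : ∀ i, (r i / h) ^ n = (M : ℝ) ^ n * (r i / R) ^ n := fun i => by
      rw [← mul_pow, hh_def]
      field_simp
    simp only [h5, ← Finset.mul_sum] at hKsum
    have hsum : ∑ i : {i : Fin k // c * R < r i}, (r i.1 / R) ^ n + ∑ i ∈ small, (r i / R) ^ n
        ≤ 1 - ε := by
      rw [← Finset.sum_subtype (Finset.univ.filter fun i : Fin k => c * R < r i) (by simp)
        (f := fun i => (r i / R) ^ n), hsmall_def, Finset.sum_filter_add_sum_filter_not]
      simp only [div_pow]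
      rw [← Finset.sum_div, div_le_iff₀ (pow_pos hR n)]
      exact hvol
    have hκ1 : 1 ≤ κ := by
      refine one_le_pow₀ ?_
      have h6 : (n : ℝ) / P < 1 := by rw [div_lt_one hP0]; exact_mod_cast hPn
      have : (0 : ℝ) ≤ n / P := by positivity
      have : (0 : ℝ) < 1 / P := by positivity
      rw [le_div_iff₀ (by linarith)]
      linarith
    have hB : 0 ≤ ∑ i : {i : Fin k // c * R < r i}, (r i.1 / R) ^ n :=
      Finset.sum_nonneg fun i _ => pow_nonneg (div_nonneg (hr _).le hR.le) n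
    have h7 := mul_le_mul_of_nonneg_left hsum (show 0 ≤ κ by linarith)
    have h8 : (M : ℝ) ^ n * (κ * ∑ i ∈ small, (r i / R) ^ n
        + ∑ i : {i : Fin k // c * R < r i}, (r i.1 / R) ^ n)
        ≤ (M : ℝ) ^ n * (κ * (1 - ε)) :=
      mul_le_mul_of_nonneg_left (by nlinarith) (by positivity)
    have h9 : (M : ℝ) ^ n * (κ * (1 - ε)) ≤ (M : ℝ) ^ n * ((1 - (n : ℝ) / M) ^ n
        - P * (1 / (M : ℝ)) ^ n - 2 ^ n * ((1 + (2 * n + 4) / M) ^ n - 1)) :=
      mul_le_mul_of_nonneg_left (by rw [hκ]; linarith) (by positivity)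
    have e1 : (M : ℝ) ^ n * (1 - (n : ℝ) / M) ^ n = ((M : ℝ) - n) ^ n := by
      rw [← mul_pow]; field_simp
    have e2 : (M : ℝ) ^ n * (1 / (M : ℝ)) ^ n = 1 := by
      rw [← mul_pow, mul_one_div_cancel hM0.ne', one_pow]
    have e3 : (M : ℝ) ^ n * ((P : ℝ) * (1 / (M : ℝ)) ^ n) = P := by
      rw [mul_left_comm, e2, mul_one]
    have h10 : ((∑ A ∈ Finset.Ico P (2 * P), K A : ℕ) : ℝ) ≤ free.card := by linarith
    exact_mod_cast h10
  obtain ⟨C, hC, hCd⟩ := exists_disjoint_subsets (Finset.Ico P (2 * P)) free K hroom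
  have hgsub : ∀ A : ℕ, 0 < A → ∀ q ∈ grid n A, ∀ u ∈ cell n (h / A),
      act (gridChart (h / A) q) u ∈ cell n h := fun A hA q hq u hu => by
    have e : (A : ℝ) * (h / A) = h := by field_simp
    have hm := gridChart_mem hq hu
    rwa [e] at hm
  have hdy : ∀ A ∈ Finset.Ico P (2 * P), ∃ G : Fin k → Equiv.Perm (Fin n) × (Fin n → ℝ),
      (∀ i ∈ grp A, ∃ q ∈ C A, ∀ u ∈ cell n (h / A / 2 ^ l i), ∃ v ∈ cell n h,
        act (G i) u = act (gridChart h q) v) ∧
      ∀ i ∈ grp A, ∀ j ∈ grp A, i ≠ j → ∀ u ∈ cell n (h / A / 2 ^ l i),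
        ∀ v ∈ cell n (h / A / 2 ^ l j), act (G i) u ≠ act (G j) v := by
    intro A hA
    have hA1 := (Finset.mem_Ico.1 hA).1
    have hA0 : 0 < A := by omega
    set D := C A ×ˢ grid n A
    have hdisD : ∀ p ∈ D, ∀ q ∈ D, p ≠ q → ∀ u ∈ cell n (h / A), ∀ v ∈ cell n (h / A),
        act (chartComp (gridChart h p.1) (gridChart (h / A) p.2)) u
          ≠ act (chartComp (gridChart h q.1) (gridChart (h / A) q.2)) v := by
      intro p hp q hq hpq u hu v hv e
      simp only [act_chartComp, Function.comp] at e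
      have e1 := gridChart_inj (hgsub A hA0 _ (Finset.mem_product.1 hp).2 u hu)
        (hgsub A hA0 _ (Finset.mem_product.1 hq).2 v hv) e
      rw [e1] at e
      exact hpq (Prod.ext e1 (gridChart_inj hu hv (act_injective _ e)))
    have hcount : ∑ i ∈ grp A, 2 ^ (n * (L - l i)) ≤ D.card * 2 ^ (n * L) := by
      have hdpos : (0 : ℝ) < (A.descFactorial n : ℕ) := by
        exact_mod_cast Nat.pos_of_ne_zero
          (by rw [ne_eq, Nat.descFactorial_eq_zero_iff_lt]; omega)
      have h1 : ∑ i ∈ grp A, (1 / (2 : ℝ) ^ (n * l i)) ≤ (K A : ℝ) * (A.descFactorial n : ℕ) :=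
        (div_le_iff₀ hdpos).1 (Nat.le_ceil _)
      have h2 : (K A * A.descFactorial n : ℕ) ≤ D.card := by
        rw [Finset.card_product, (hC A hA).2]
        exact Nat.mul_le_mul_left _ (grid_card_ge n A)
      have h3 : ((∑ i ∈ grp A, 2 ^ (n * (L - l i)) : ℕ) : ℝ)
          = (∑ i ∈ grp A, (1 / (2 : ℝ) ^ (n * l i))) * 2 ^ (n * L) := by
        rw [Nat.cast_sum, Finset.sum_mul]
        refine Finset.sum_congr rfl fun i hi => ?_
        have hl : l i ≤ L := Finset.le_sup (Finset.mem_filter.1 hi).1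
        rw [Nat.mul_sub, div_mul_eq_mul_div, one_mul, Nat.cast_pow, Nat.cast_ofNat,
          pow_sub₀ _ two_ne_zero (Nat.mul_le_mul_left n hl), div_eq_mul_inv]
      have h4 : ((∑ i ∈ grp A, 2 ^ (n * (L - l i)) : ℕ) : ℝ)
          ≤ ((D.card * 2 ^ (n * L) : ℕ) : ℝ) := by
        rw [h3, Nat.cast_mul, Nat.cast_pow, Nat.cast_ofNat]
        refine mul_le_mul_of_nonneg_right (h1.trans ?_) (by positivity)
        exact_mod_cast h2
      exact_mod_cast h4
    obtain ⟨G, hG1, hG2⟩ := dyadic_charts L (grp A) l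
      (fun i hi => Finset.le_sup (Finset.mem_filter.1 hi).1) _ D
      (fun p => chartComp (gridChart h p.1) (gridChart (h / A) p.2)) (h / A) (by positivity)
      hdisD hcount
    refine ⟨G, fun i hi => ?_, hG2⟩
    obtain ⟨p, hp, hpu⟩ := hG1 i hi
    refine ⟨p.1, (Finset.mem_product.1 hp).1, fun u hu => ?_⟩
    obtain ⟨v, hv, e⟩ := hpu u hu
    exact ⟨_, hgsub A hA0 _ (Finset.mem_product.1 hp).2 v hv,
      by rw [e, act_chartComp]; rfl⟩
  choose! G hG1 hG2 using hdy
  -- all together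
  have hsm : ∀ i, ¬ c * R < r i → i ∈ small := fun i hi =>
    Finset.mem_filter.2 ⟨Finset.mem_univ i, hi⟩
  have hgr : ∀ i ∈ small, a i ∈ Finset.Ico P (2 * P) ∧ i ∈ grp (a i) := fun i hi =>
    ⟨Finset.mem_Ico.2 ⟨ha1 i hi, ha2 i hi⟩, Finset.mem_filter.2 ⟨hi, rfl⟩⟩
  have hin : ∀ i ∈ small, ∃ q ∈ C (a i), q ∈ free ∧ ∀ u ∈ cell n (h / a i / 2 ^ l i),
      ∃ v ∈ cell n h, act (G (a i) i) u = act (gridChart h q) v := fun i hi => by
    obtain ⟨q, hq, hqu⟩ := hG1 _ (hgr i hi).1 i (hgr i hi).2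
    exact ⟨q, hq, (hC _ (hgr i hi).1).1 hq, hqu⟩
  have hmix : ∀ (i : Fin k) (hi : c * R < r i), ∀ j ∈ small, ∀ u ∈ cell n (s ⟨i, hi⟩),
      ∀ v ∈ cell n (h / a j / 2 ^ l j), act (g0 ⟨i, hi⟩) u ≠ act (G (a j) j) v := by
    intro i hi j hj u hu v hv e
    obtain ⟨q, -, hqf, hqu⟩ := hin j hj
    obtain ⟨w, hw, e'⟩ := hqu v hv
    obtain ⟨hq1, hq2⟩ := Finset.mem_sdiff.1 hqf
    exact hq2 (Finset.mem_biUnion.2 ⟨⟨i, hi⟩, Finset.mem_univ _,
      Finset.mem_filter.2 ⟨hq1, w, hw, u, hu, (e.trans e').symm⟩⟩)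
  refine packing_of_charts hn
    (fun i => if hi : c * R < r i then g0 ⟨i, hi⟩ else G (a i) i)
    (s := fun i => if hi : c * R < r i then s ⟨i, hi⟩ else h / a i / 2 ^ l i)
    (fun i => ?_) (fun i => ?_) (fun i j hij => ?_)
  · by_cases hi : c * R < r i
    · rw [dif_pos hi]
      exact lt_min (hs0 ⟨i, hi⟩) (by simp only; linarith)
    · rw [dif_neg hi, div_div, lt_div_iff₀' (by
        have : (P : ℝ) ≤ a i := by exact_mod_cast ha1 i (hsm i hi)
        have : (0 : ℝ) < a i := by linarith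
        positivity)]
      have := hax1 i (hsm i hi)
      rwa [lt_div_iff₀ (hr i)] at this
  · by_cases hi : c * R < r i
    · simp only [dif_pos hi]
      exact fun u hu => hsub0 _ u (cell_mono (min_le_left _ _) hu)
    · simp only [dif_neg hi]
      intro u hu
      obtain ⟨q, -, hqf, hqu⟩ := hin i (hsm i hi)
      obtain ⟨v, hv, e⟩ := hqu u hu
      rw [e, hRh]
      exact gridChart_mem (Finset.mem_sdiff.1 hqf).1 hv
  · by_cases hi : c * R < r i <;> by_cases hj : c * R < r j <;>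
      simp only [hi, hj, dite_true, dite_false] <;> intro u hu v hv
    · exact hdis0 _ _ (fun e => hij (congrArg Subtype.val e)) u
        (cell_mono (min_le_left _ _) hu) v (cell_mono (min_le_left _ _) hv)
    · exact hmix i hi j (hsm j hj) u hu v hv
    · exact (hmix j hj i (hsm i hi) v hv u hu).symm
    · intro e
      have hi' := hsm i hi
      have hj' := hsm j hj
      by_cases hA : a i = a j
      · rw [← hA] at e hv
        exact hG2 _ (hgr i hi').1 i (hgr i hi').2 j
          (hA ▸ (hgr j hj').2) hij u hu v hv e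
      · obtain ⟨q, hq, -, hqu⟩ := hin i hi'
        obtain ⟨q', hq', -, hqu'⟩ := hin j hj'
        obtain ⟨w, hw, e1⟩ := hqu u hu
        obtain ⟨w', hw', e2⟩ := hqu' v hv
        have := gridChart_inj hw hw' (e1.symm.trans (e.trans e2))
        exact Finset.disjoint_left.1 (hCd _ (hgr i hi').1 _ (hgr j hj').1 hA) hq (this ▸ hq')

end P209
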